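import Vale.Agent.P216.H456.PTriv
import Vale.Agent.P216.H133C.Cell

/-!
# P216-C, [C05]: loops and paths over a handle

`cellFL`, `cellPF`: over a closed handle `(D, S) ≃ (I^n, ∂I^n)` with tracks of time `ℓ` to `x₀`, the
free loops (the paths with free start and end `b`) are interleaved with
`(I^n, ∂I^n) × P x₀ x₀ t` (`(I^n, ∂I^n) × P x₀ b t`), as families of pairs.
-/

set_option linter.all false

namespace Vale.Agent.P216.H456C

open Set Filter Topology BoundedContinuousFunction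
open Vale.Agent.P216.PS
open Vale.Agent.P216.MV337
open Vale.Agent.P216.H456
open Vale.Agent.P216.H133C
open Vale.Agent.P216.AS (IsMap IsHtpy)
open Vale.Agent.P216.H901 (Hp SpIntl Cu cub bdc ovr tr)
open Vale.Agent.P216.MV337.Tr (htA htB)

section basic

variable {M : Type*} [MetricSpace M] {a b x₀ : M} {t t' u m ℓ : ℝ} {w v : ℝ →ᵇ M}
  {D D' : Set M} {T : M → ℝ → M}

variable [CompactSpace M] {l : ℝ}

theorem lcut_memB (h : Tr D x₀ ℓ T) (ht : 0 ≤ t) (hw : w ∈ PFD b D t) :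
    lcut T ℓ w ∈ P x₀ b (t + ℓ) :=
  mo_lj_mem (h.lip _ hw.2) hw.1.1 ht h.nonneg (h.left _ hw.2 0 le_rfl).symm (h.right _ hw.2)
    hw.1.2.2

theorem lback_memB (h : Tr D x₀ ℓ T) (ht : 0 ≤ t) {p : M × (ℝ →ᵇ M)} (hx : p.1 ∈ D)
    (hv : p.2 ∈ P x₀ b t) : lback T ℓ p ∈ P p.1 b (t + ℓ) := by
  have e : T p.1 (ℓ - 0) = x₀ := by rw [sub_zero]; exact h.right _ hx _ le_rfl
  refine mo_lj_mem (h.liprev hx) hv.1 ht h.nonneg ?_ (fun u hu => ?_) hv.2.2
  · show p.2 0 = T p.1 (ℓ - 0)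
    rw [e, eq_left hv le_rfl]
  · exact h.left _ hx _ (by linarith)

theorem lback_zeroB (h : Tr D x₀ ℓ T) (ht : 0 ≤ t) {p : M × (ℝ →ᵇ M)} (hx : p.1 ∈ D)
    (hv : p.2 ∈ P x₀ b t) : lback T ℓ p 0 = p.1 := eq_left (lback_memB h ht hx hv) le_rfl

theorem lback_memDB (h : Tr D x₀ ℓ T) (ht : 0 ≤ t) {p : M × (ℝ →ᵇ M)} (hx : p.1 ∈ D)
    (hv : p.2 ∈ P x₀ b t) : lback T ℓ p ∈ PFD b D (t + ℓ) :=
  ⟨P_subset_PF (lback_memB h ht hx hv), by rw [lback_zeroB h ht hx hv]; exact hx⟩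

/-- the values of `lcut` -/
theorem lcut_applyB (h : Tr D x₀ ℓ T) (hw : w ∈ PFD b D t) (u : ℝ) :
    lcut T ℓ w u = lj ℓ (T (w 0)) w u :=
  (lip_lj (h.lip _ hw.2) hw.1.1 (h.left _ hw.2 0 le_rfl).symm).mo_apply u

/-- the values of `lback` -/
theorem lback_applyB (h : Tr D x₀ ℓ T) {p : M × (ℝ →ᵇ M)} (hx : p.1 ∈ D)
    (hv : p.2 ∈ P x₀ b t) (u : ℝ) : lback T ℓ p u = lj ℓ (fun u => T p.1 (ℓ - u)) p.2 u := by
  refine (lip_lj (h.liprev hx) hv.1 ?_).mo_apply u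
  show p.2 0 = T p.1 (ℓ - 0)
  rw [sub_zero, h.right _ hx _ le_rfl, eq_left hv le_rfl]

theorem continuousOn_lcut'B (h : Tr D x₀ ℓ T) {S : Type*} [TopologicalSpace S] {A : Set S}
    {W : S → ℝ →ᵇ M} (ht : 0 ≤ t) (hW : ContinuousOn W A) (hm : ∀ s ∈ A, W s ∈ PFD b D t) :
    ContinuousOn (fun s => lcut T ℓ (W s)) A := by
  have hX : ContinuousOn (fun s => W s 0) A := continuousOn_eval hW continuousOn_const
  refine continuousOn_of_eval (t := t + ℓ) (by linarith [h.nonneg]) (fun s hs => ?_) fun u => ?_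
  · exact P_subset_PP (lcut_memB h ht (hm s hs))
  · refine ContinuousOn.congr (f := fun s => lj ℓ (T (W s 0)) (W s) u) ?_ fun s hs =>
      lcut_applyB h (hm s hs) u
    refine continuousOn_lj u continuousOn_const (fun φ hφ => ?_) (fun φ hφ => ?_) fun s hs => ?_
    · exact h.cont' hX (fun s hs => (hm s hs).2) hφ
    · exact continuousOn_eval hW hφ
    · exact (h.left _ (hm s hs).2 0 le_rfl).symm

theorem continuousOn_lcutB (h : Tr D x₀ ℓ T) (ht : 0 ≤ t) :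
    ContinuousOn (lcut T ℓ) (PFD b D t) :=
  continuousOn_lcut'B h ht continuousOn_id fun _ hs => hs

theorem continuousOn_lback'B (h : Tr D x₀ ℓ T) {S : Type*} [TopologicalSpace S] {A : Set S}
    {X : S → M} {W : S → ℝ →ᵇ M} (ht : 0 ≤ t) (hX : ContinuousOn X A) (hW : ContinuousOn W A)
    (hXD : ∀ s ∈ A, X s ∈ D) (hm : ∀ s ∈ A, W s ∈ P x₀ b t) :
    ContinuousOn (fun s => lback T ℓ (X s, W s)) A := by
  refine continuousOn_of_eval (t := t + ℓ) (by linarith [h.nonneg]) (fun s hs => ?_) fun u => ?_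
  · exact P_subset_PP (lback_memB (p := (X s, W s)) h ht (hXD s hs) (hm s hs))
  · refine ContinuousOn.congr (f := fun s => lj ℓ (fun u => T (X s) (ℓ - u)) (W s) u) ?_
      fun s hs => lback_applyB (p := (X s, W s)) h (hXD s hs) (hm s hs) u
    refine continuousOn_lj u continuousOn_const (fun φ hφ => ?_) (fun φ hφ => ?_) fun s hs => ?_
    · exact h.cont' hX hXD (continuousOn_const.sub hφ)
    · exact continuousOn_eval hW hφ
    · show W s 0 = T (X s) (ℓ - 0)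
      rw [sub_zero, h.right _ (hXD s hs) _ le_rfl, eq_left (hm s hs) le_rfl]

theorem continuousOn_lbackB (h : Tr D x₀ ℓ T) (ht : 0 ≤ t) :
    ContinuousOn (lback T ℓ) (D ×ˢ P x₀ b t) :=
  continuousOn_lback'B h ht continuousOn_fst continuousOn_snd (fun _ hs => hs.1) fun _ hs => hs.2

/-! ### first homotopy -/

theorem lhA_memB (h : Tr D x₀ ℓ T) (ht : 0 ≤ t) (hl : 0 ≤ l) (hw : w ∈ PFD b D t) :
    lhA T ℓ (l, w) ∈ P (w 0) b (t + 2 * ℓ) := by
  refine P_mono (t := t + min 1 (2 * l) * (2 * ℓ)) (by linarith [h.mL_le (l := l)]) ?_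
  exact mo_lj_mem (h.qA_lip hw.2 _) hw.1.1 ht (h.mL_nonneg hl) (h.qA_zero hw.2 _).symm
    (fun u hu => h.qA_ge hw.2 hl hu) hw.1.2.2

theorem lhA_zeroB (h : Tr D x₀ ℓ T) (hw : w ∈ PFD b D t) : lhA T ℓ (0, w) = w := by
  have e : (fun u => T (w 0) (min (max 0 (2 * (0:ℝ) - 1) * ℓ) (ℓ - |u - ℓ|))) = fun _ => w 0 := by
    funext u
    refine h.left _ hw.2 _ ((min_le_left _ _).trans ?_)
    rw [max_eq_left (by norm_num), zero_mul]
  unfold lhA
  simp only [mul_zero]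
  simp only [mul_zero] at e
  rw [e, min_eq_right zero_le_one, zero_mul]
  have e2 : lj 0 (fun _ => w 0) w = fun u => w u := by
    funext u
    rw [lj_const w (w 0) hw.1.2.1, sub_zero]
  rw [e2, mo_self]

theorem lhA_oneB (h : Tr D x₀ ℓ T) (hw : w ∈ PFD b D t) :
    lhA T ℓ (1, w) = lback T ℓ (w 0, lcut T ℓ w) := by
  have hn := h.nonneg
  unfold lhA lback
  congr 1
  funext u
  have e0 : w 0 = T (w 0) 0 := (h.left _ hw.2 0 le_rfl).symm
  have ec : (fun u => (lcut T ℓ w) u) = lj ℓ (T (w 0)) w := by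
    funext u
    exact lcut_applyB h hw u
  show lj (min 1 (2 * 1) * (2 * ℓ)) (fun u => T (w 0) (min (max 0 (2 * 1 - 1) * ℓ) (ℓ - |u - ℓ|)))
    w u = lj ℓ (fun u => T (w 0) (ℓ - u)) (fun u => (lcut T ℓ w) u) u
  rw [ec, lj_lj hn hn e0 (by rw [sub_zero])]
  have em : min 1 (2 * (1:ℝ)) * (2 * ℓ) = ℓ + ℓ := by norm_num; ring
  have eq : (fun u => T (w 0) (min (max 0 (2 * 1 - 1) * ℓ) (ℓ - |u - ℓ|))) =
      catf ℓ (T (w 0)) (fun u => T (w 0) (ℓ - u)) := by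
    funext u
    have e3 : max 0 (2 * (1:ℝ) - 1) * ℓ = ℓ := by norm_num
    rw [e3]
    rcases le_total u ℓ with h1 | h1
    · rw [catf_left h1, abs_of_nonpos (by linarith), min_eq_right (by linarith)]
      congr 1; ring
    · rw [catf_right (by rw [sub_zero]) h1, abs_of_nonneg (by linarith), min_eq_right (by linarith)]
  rw [em, eq]

theorem continuousOn_lhAB (h : Tr D x₀ ℓ T) (ht : 0 ≤ t) :
    ContinuousOn (lhA T ℓ) (Icc (0:ℝ) 1 ×ˢ PFD b D t) := by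
  have hW : ContinuousOn (fun p : ℝ × (ℝ →ᵇ M) => p.2) (Icc (0:ℝ) 1 ×ˢ PFD b D t) := continuousOn_snd
  have hX : ContinuousOn (fun p : ℝ × (ℝ →ᵇ M) => p.2 0) (Icc (0:ℝ) 1 ×ˢ PFD b D t) :=
    continuousOn_eval hW continuousOn_const
  have hn := h.nonneg
  refine continuousOn_of_eval (t := t + 2 * ℓ) (by linarith) (fun p hp => ?_) fun u => ?_
  · exact P_subset_PP (lhA_memB (l := p.1) (w := p.2) h ht hp.1.1 hp.2)
  · refine ContinuousOn.congr (f := fun p : ℝ × (ℝ →ᵇ M) => lj (min 1 (2 * p.1) * (2 * ℓ))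
      (fun u => T (p.2 0) (min (max 0 (2 * p.1 - 1) * ℓ) (ℓ - |u - ℓ|))) p.2 u) ?_ fun p hp => ?_
    · refine continuousOn_lj u ?_ (fun φ hφ => ?_) (fun φ hφ => ?_) fun p hp => ?_
      · fun_prop
      · refine h.cont' hX (fun p hp => hp.2.2) ?_
        fun_prop
      · exact continuousOn_eval hW hφ
      · exact (h.qA_zero hp.2.2 _).symm
    · exact (lip_lj (h.qA_lip hp.2.2 _) hp.2.1.1 (h.qA_zero hp.2.2 _).symm).mo_apply u

/-! ### second homotopy -/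

theorem lhB_memB (h : Tr D x₀ ℓ T) (ht : 0 ≤ t) (hl : 0 ≤ l) {x : M} (hx : x ∈ D)
    (hv : v ∈ P x₀ b t) : lhB T ℓ (l, (x, v)) ∈ P x₀ b (t + 2 * ℓ) := by
  refine P_mono (t := t + min 1 (2 * l) * (2 * ℓ)) (by linarith [h.mL_le (l := l)]) ?_
  exact mo_lj_mem (h.qB_lip hx _) hv.1 ht (h.mL_nonneg hl)
    ((eq_left hv le_rfl).trans (h.qB_zero hx _).symm) (fun u hu => h.qB_ge hx hl hu) hv.2.2

theorem lhB_zeroB (h : Tr D x₀ ℓ T) {x : M} (hx : x ∈ D) (hv : v ∈ P x₀ b t) :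
    lhB T ℓ (0, (x, v)) = v := by
  have e : (fun u => T x (max (ℓ - max 0 (2 * (0:ℝ) - 1) * ℓ) |u - ℓ|)) = fun _ => x₀ := by
    funext u
    refine h.right _ hx _ (le_trans ?_ (le_max_left _ _))
    rw [max_eq_left (by norm_num : 2 * (0:ℝ) - 1 ≤ 0), zero_mul, sub_zero]
  unfold lhB
  simp only [mul_zero]
  simp only [mul_zero] at e
  rw [e, min_eq_right zero_le_one, zero_mul]
  have e2 : lj 0 (fun _ => x₀) v = fun u => v u := by
    funext u
    rw [lj_const v x₀ hv.2.1, sub_zero]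
  rw [e2, mo_self]

theorem lhB_oneB (h : Tr D x₀ ℓ T) (ht : 0 ≤ t) {x : M} (hx : x ∈ D) (hv : v ∈ P x₀ b t) :
    lhB T ℓ (1, (x, v)) = lcut T ℓ (lback T ℓ (x, v)) := by
  have hn := h.nonneg
  have hb0 : lback T ℓ (x, v) 0 = x := lback_zeroB h ht hx hv
  unfold lcut
  rw [hb0]
  unfold lhB
  congr 1
  funext u
  have e0 : v 0 = T x (ℓ - 0) := by
    rw [sub_zero, h.right _ hx _ le_rfl, eq_left hv le_rfl]
  have ec : (fun u => (lback T ℓ (x, v)) u) = lj ℓ (fun u => T x (ℓ - u)) v := by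
    funext u
    exact lback_applyB (p := (x, v)) h hx hv u
  show lj (min 1 (2 * 1) * (2 * ℓ)) (fun u => T x (max (ℓ - max 0 (2 * 1 - 1) * ℓ) |u - ℓ|))
    v u = lj ℓ (T x) (fun u => (lback T ℓ (x, v)) u) u
  rw [ec, lj_lj (q := fun u => T x (ℓ - u)) (q' := T x) hn hn e0 (by
      show T x (ℓ - ℓ) = T x 0
      rw [sub_self])]
  have em : min 1 (2 * (1:ℝ)) * (2 * ℓ) = ℓ + ℓ := by norm_num; ring
  have eq : (fun u => T x (max (ℓ - max 0 (2 * 1 - 1) * ℓ) |u - ℓ|)) =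
      catf ℓ (fun u => T x (ℓ - u)) (T x) := by
    funext u
    have e3 : ℓ - max 0 (2 * (1:ℝ) - 1) * ℓ = 0 := by norm_num
    rw [e3, max_eq_right (abs_nonneg _)]
    rcases le_total u ℓ with h1 | h1
    · rw [catf_left h1, abs_of_nonpos (by linarith)]
      congr 1; ring
    · rw [catf_right (by rw [sub_self]) h1, abs_of_nonneg (by linarith)]
  rw [em, eq]

theorem continuousOn_lhBB (h : Tr D x₀ ℓ T) (ht : 0 ≤ t) :
    ContinuousOn (lhB T ℓ) (Icc (0:ℝ) 1 ×ˢ (D ×ˢ P x₀ b t)) := by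
  have hW : ContinuousOn (fun p : ℝ × (M × (ℝ →ᵇ M)) => p.2.2) (Icc (0:ℝ) 1 ×ˢ (D ×ˢ P x₀ b t)) := by
    fun_prop
  have hX : ContinuousOn (fun p : ℝ × (M × (ℝ →ᵇ M)) => p.2.1) (Icc (0:ℝ) 1 ×ˢ (D ×ˢ P x₀ b t)) := by
    fun_prop
  have hn := h.nonneg
  refine continuousOn_of_eval (t := t + 2 * ℓ) (by linarith) (fun p hp => ?_) fun u => ?_
  · exact P_subset_PP (lhB_memB (l := p.1) (x := p.2.1) (v := p.2.2) h ht hp.1.1 hp.2.1 hp.2.2)
  · refine ContinuousOn.congr (f := fun p : ℝ × (M × (ℝ →ᵇ M)) => lj (min 1 (2 * p.1) * (2 * ℓ))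
      (fun u => T p.2.1 (max (ℓ - max 0 (2 * p.1 - 1) * ℓ) |u - ℓ|)) p.2.2 u) ?_ fun p hp => ?_
    · refine continuousOn_lj u ?_ (fun φ hφ => ?_) (fun φ hφ => ?_) fun p hp => ?_
      · fun_prop
      · refine h.cont' hX (fun p hp => hp.2.1) ?_
        fun_prop
      · exact continuousOn_eval hW hφ
      · exact (eq_left hp.2.2 le_rfl).trans (h.qB_zero hp.2.1 _).symm
    · exact (lip_lj (h.qB_lip hp.2.1 _) hp.2.2.1
        ((eq_left hp.2.2 le_rfl).trans (h.qB_zero hp.2.1 _).symm)).mo_apply u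

end basic



/-! ### Interleavings over a handle -/

variable {M : Type} [MetricSpace M] [CompactSpace M] {x₀ b : M} {ℓ : ℝ} {T : M → ℝ → M} {n : ℕ}
  {D S : Set M}

theorem isCompact_ovrPB {D : Set M} (hD : IsClosed D) {t : ℝ} (ht : 0 ≤ t) :
    IsCompact (ovr evz (fun t => PF b t) D t) := isCompact_PFD hD ht

/-- **free loops over a handle** -/
noncomputable def cellFL (C : Cell M n D S) (hD : IsClosed D) (hS : S ⊆ D) (h : Tr D x₀ ℓ T) :
    SpIntl (ovr evz (fun t => FL M t) D) (ovr evz (fun t => FL M t) S)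
      (fun t => cub n (P x₀ x₀ t)) (fun t => bdc n (P x₀ x₀ t)) (2 * ℓ) where
  f t w := enc n (cut T ℓ t w) (C.φ (w 0))
  g t z := back T ℓ t (C.ψ (dec2 n z), dec1 n z)
  f_map t ht := by
    refine map_of_cont (isCompact_ovr hD ht.le) ?_ fun w hw => ?_
    · exact enc_cont n (h.continuousOn_cut ht.le)
        (C.φ_cont.comp (continuousOn_eval continuousOn_id continuousOn_const) fun w hw => hw.2)
    · rw [mem_cub, dec1_enc, dec2_enc]
      exact ⟨h.cut_mem ht.le hw, C.φ_mem _ hw.2⟩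
  f_sub t ht := by
    intro w hw
    have hw' : w ∈ FLD D t := ⟨hw.1, hS hw.2⟩
    rw [mem_bdc, mem_cub, dec1_enc, dec2_enc]
    exact ⟨⟨h.cut_mem ht.le hw', C.φ_mem _ hw'.2⟩, C.φ_bd _ hw.2⟩
  g_map t ht := by
    refine map_of_cont (isCompact_cub n (isCompact_P _ _ _)) ?_ fun z hz => ?_
    · refine h.continuousOn_back' (C := t) ?_ (dec1_cont n).continuousOn continuousOn_const
        (fun _ _ => ht.le) (fun _ _ => le_rfl) (fun z hz => C.ψ_mem _ ((mem_cub n).1 hz).2)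
        fun z hz => ((mem_cub n).1 hz).1
      exact C.ψ_cont.comp (dec2_cont n).continuousOn fun z hz => ((mem_cub n).1 hz).2
    · exact h.back_memD (p := (C.ψ (dec2 n z), dec1 n z)) ht.le (C.ψ_mem _ ((mem_cub n).1 hz).2)
        ((mem_cub n).1 hz).1
  g_sub t ht := by
    intro z hz
    obtain ⟨h1, h2⟩ := (mem_bdc n).1 hz
    obtain ⟨h3, h4⟩ := (mem_cub n).1 h1
    have h5 := C.ψ_mem _ h4
    have h6 := h.back_memD (p := (C.ψ (dec2 n z), dec1 n z)) ht.le h5 h3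
    refine ⟨h6.1, ?_⟩
    show back T ℓ t (C.ψ (dec2 n z), dec1 n z) 0 ∈ S
    rw [h.back_zero (p := (C.ψ (dec2 n z), dec1 n z)) ht.le h5 h3]
    exact C.ψ_bd _ h4 h2
  f_nat s t hs hst := by
    have hc : ContinuousOn (fun p : ℝ × (ℝ →ᵇ M) => enc n (cut T ℓ (s + p.1 * (t - s)) p.2)
        (C.φ (p.2 0))) (Icc (0:ℝ) 1 ×ˢ ovr evz (fun t => FL M t) D s) := by
      refine enc_cont n ?_ (C.φ_cont.comp (continuousOn_eval continuousOn_snd continuousOn_const)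
        fun p hp => hp.2.2)
      refine h.continuousOn_cut' (C := t) continuousOn_snd (by fun_prop) ?_ ?_ ?_
      · exact fun p hp => hs.le.trans (tm_aux hst hp.1).1
      · exact fun p hp => (tm_aux hst hp.1).2
      · exact fun p hp => FLD_mono le_rfl (tm_aux hst hp.1).1 hp.2
    have hm : ∀ σ ∈ Icc (0:ℝ) 1, ∀ w ∈ FLD D s,
        cut T ℓ (s + σ * (t - s)) w ∈ P x₀ x₀ (t + 2 * ℓ) := fun σ hσ w hw =>
      P_mono (by linarith [(tm_aux hst hσ).2]) (h.cut_mem (hs.le.trans (tm_aux hst hσ).1)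
        (FLD_mono le_rfl (tm_aux hst hσ).1 hw))
    refine hp_of_cont (isCompact_ovr hD hs.le) hc ?_ ?_ ?_ ?_
    · intro σ hσ w hw
      rw [mem_cub, dec1_enc, dec2_enc]
      exact ⟨hm σ hσ w hw, C.φ_mem _ hw.2⟩
    · intro σ hσ w hw
      rw [mem_bdc, mem_cub, dec1_enc, dec2_enc]
      exact ⟨⟨hm σ hσ w ⟨hw.1, hS hw.2⟩, C.φ_mem _ (hS hw.2)⟩, C.φ_bd _ hw.2⟩
    · intro w hw
      show enc n (cut T ℓ (s + 0 * (t - s)) w) _ = _
      rw [zero_mul, add_zero]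
    · intro w hw
      show enc n (cut T ℓ (s + 1 * (t - s)) w) _ = _
      rw [one_mul, add_sub_cancel]
  g_nat s t hs hst := by
    have hc : ContinuousOn (fun p : ℝ × Cu (ℝ →ᵇ M) n => back T ℓ (s + p.1 * (t - s))
        (C.ψ (dec2 n p.2), dec1 n p.2)) (Icc (0:ℝ) 1 ×ˢ cub n (P x₀ x₀ s)) := by
      refine h.continuousOn_back' (C := t) ?_ ((dec1_cont n).comp_continuousOn continuousOn_snd)
        (by fun_prop) ?_ ?_ ?_ ?_
      · exact C.ψ_cont.comp ((dec2_cont n).comp_continuousOn continuousOn_snd)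
          fun p hp => ((mem_cub n).1 hp.2).2
      · exact fun p hp => hs.le.trans (tm_aux hst hp.1).1
      · exact fun p hp => (tm_aux hst hp.1).2
      · exact fun p hp => C.ψ_mem _ ((mem_cub n).1 hp.2).2
      · exact fun p hp => P_mono (tm_aux hst hp.1).1 ((mem_cub n).1 hp.2).1
    have hm : ∀ σ ∈ Icc (0:ℝ) 1, ∀ z ∈ cub n (P x₀ x₀ s),
        back T ℓ (s + σ * (t - s)) (C.ψ (dec2 n z), dec1 n z) ∈
          P (C.ψ (dec2 n z)) (C.ψ (dec2 n z)) (t + 2 * ℓ) := fun σ hσ z hz =>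
      P_mono (by linarith [(tm_aux hst hσ).2]) (h.back_mem (p := (C.ψ (dec2 n z), dec1 n z))
        (hs.le.trans (tm_aux hst hσ).1) (C.ψ_mem _ ((mem_cub n).1 hz).2)
        (P_mono (tm_aux hst hσ).1 ((mem_cub n).1 hz).1))
    refine hp_of_cont (isCompact_cub n (isCompact_P _ _ _)) hc ?_ ?_ ?_ ?_
    · intro σ hσ z hz
      refine ⟨P_subset_FL (hm σ hσ z hz), ?_⟩
      show back T ℓ (s + σ * (t - s)) (C.ψ (dec2 n z), dec1 n z) 0 ∈ D
      rw [eq_left (hm σ hσ z hz) le_rfl]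
      exact C.ψ_mem _ ((mem_cub n).1 hz).2
    · intro σ hσ z hz
      obtain ⟨h1, h2⟩ := (mem_bdc n).1 hz
      obtain ⟨h3, h4⟩ := (mem_cub n).1 h1
      refine ⟨P_subset_FL (hm σ hσ z h1), ?_⟩
      show back T ℓ (s + σ * (t - s)) (C.ψ (dec2 n z), dec1 n z) 0 ∈ S
      rw [eq_left (hm σ hσ z h1) le_rfl]
      exact C.ψ_bd _ h4 h2
    · intro z hz
      show back T ℓ (s + 0 * (t - s)) _ = _
      rw [zero_mul, add_zero]
    · intro z hz
      show back T ℓ (s + 1 * (t - s)) _ = _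
      rw [one_mul, add_sub_cancel]
  gf t ht := by
    have hn := h.nonneg
    have hm : ∀ σ ∈ Icc (0:ℝ) 1, ∀ w ∈ FLD D t,
        htA T ℓ t (σ, w) ∈ P (w 0) (w 0) (t + 2 * ℓ + 2 * ℓ) :=
      fun σ hσ w hw => P_mono (by linarith) (h.htA_mem ht.le hσ.1 hw)
    have hm2 : ∀ σ ∈ Icc (0:ℝ) 1, ∀ w ∈ FLD D t,
        back T ℓ (t + 2 * ℓ) (C.K (w 0, σ), cut T ℓ t w) ∈
          P (C.K (w 0, σ)) (C.K (w 0, σ)) (t + 2 * ℓ + 2 * ℓ) := fun σ hσ w hw =>
      h.back_mem (p := (C.K (w 0, σ), cut T ℓ t w)) (by linarith) (C.K_mem _ hw.2 _ hσ)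
        (h.cut_mem ht.le hw)
    refine hp_of_cont (isCompact_ovr hD ht.le)
      (F := cc (htA T ℓ t) (fun p => back T ℓ (t + 2 * ℓ) (C.K (p.2 0, p.1), cut T ℓ t p.2)))
      ?_ ?_ ?_ ?_ ?_
    · refine cc_cont (h.continuousOn_htA ht.le) ?_ fun w hw => ?_
      · refine h.continuousOn_back' (C := t + 2 * ℓ) ?_ ?_ continuousOn_const ?_ ?_ ?_ ?_
        · refine C.K_cont.comp ((continuousOn_eval continuousOn_snd continuousOn_const).prodMk
            continuousOn_fst) fun p hp => ⟨hp.2.2, hp.1⟩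
        · exact (h.continuousOn_cut ht.le).comp continuousOn_snd fun p hp => hp.2
        · exact fun _ _ => by linarith
        · exact fun _ _ => le_rfl
        · exact fun p hp => C.K_mem _ hp.2.2 _ hp.1
        · exact fun p hp => h.cut_mem ht.le hp.2
      · rw [h.htA_one ht.le hw]
        show _ = back T ℓ (t + 2 * ℓ) (C.K (w 0, 0), cut T ℓ t w)
        rw [C.K_zero (w 0) hw.2]
    · intro σ hσ w hw
      refine cc_mem (fun s hs => ?_) (fun s hs => ?_) hσ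
      · refine ⟨P_subset_FL (hm s hs w hw), ?_⟩
        show htA T ℓ t (s, w) 0 ∈ D
        rw [eq_left (hm s hs w hw) le_rfl]
        exact hw.2
      · refine ⟨P_subset_FL (hm2 s hs w hw), ?_⟩
        show back T ℓ (t + 2 * ℓ) (C.K (w 0, s), cut T ℓ t w) 0 ∈ D
        rw [eq_left (hm2 s hs w hw) le_rfl]
        exact C.K_mem _ hw.2 _ hs
    · intro σ hσ w hw
      have hw' : w ∈ FLD D t := ⟨hw.1, hS hw.2⟩
      refine cc_mem (fun s hs => ?_) (fun s hs => ?_) hσ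
      · refine ⟨P_subset_FL (hm s hs w hw'), ?_⟩
        show htA T ℓ t (s, w) 0 ∈ S
        rw [eq_left (hm s hs w hw') le_rfl]
        exact hw.2
      · refine ⟨P_subset_FL (hm2 s hs w hw'), ?_⟩
        show back T ℓ (t + 2 * ℓ) (C.K (w 0, s), cut T ℓ t w) 0 ∈ S
        rw [eq_left (hm2 s hs w hw') le_rfl]
        exact C.K_bd _ hw.2 _ hs
    · intro w hw
      rw [cc_zero]
      exact h.htA_zero ht.le hw
    · intro w hw
      rw [cc_one]
      show back T ℓ (t + 2 * ℓ) (C.K (w 0, 1), cut T ℓ t w) = back T ℓ (t + 2 * ℓ)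
        (C.ψ (dec2 n (enc n (cut T ℓ t w) (C.φ (w 0)))),
          dec1 n (enc n (cut T ℓ t w) (C.φ (w 0))))
      rw [dec1_enc, dec2_enc, C.K_one (w 0) hw.2]
  fg t ht := by
    have hn := h.nonneg
    have hc : ContinuousOn (fun p : ℝ × Cu (ℝ →ᵇ M) n => enc n
        (htB T ℓ t (p.1, (C.ψ (dec2 n p.2), dec1 n p.2))) (dec2 n p.2))
        (Icc (0:ℝ) 1 ×ˢ cub n (P x₀ x₀ t)) := by
      have hd2 : ContinuousOn (fun p : ℝ × Cu (ℝ →ᵇ M) n => dec2 n p.2)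
          (Icc (0:ℝ) 1 ×ˢ cub n (P x₀ x₀ t)) := (dec2_cont n).comp_continuousOn continuousOn_snd
      have hd1 : ContinuousOn (fun p : ℝ × Cu (ℝ →ᵇ M) n => dec1 n p.2)
          (Icc (0:ℝ) 1 ×ˢ cub n (P x₀ x₀ t)) := (dec1_cont n).comp_continuousOn continuousOn_snd
      refine enc_cont n ?_ hd2
      refine (h.continuousOn_htB ht.le).comp (continuousOn_fst.prodMk ((C.ψ_cont.comp hd2
        fun p hp => ((mem_cub n).1 hp.2).2).prodMk hd1)) fun p hp => ?_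
      exact ⟨hp.1, C.ψ_mem _ ((mem_cub n).1 hp.2).2, ((mem_cub n).1 hp.2).1⟩
    have hm : ∀ σ ∈ Icc (0:ℝ) 1, ∀ z ∈ cub n (P x₀ x₀ t),
        htB T ℓ t (σ, (C.ψ (dec2 n z), dec1 n z)) ∈ P x₀ x₀ (t + 2 * ℓ + 2 * ℓ) := fun σ hσ z hz =>
      P_mono (by linarith) (h.htB_mem ht.le hσ.1 (C.ψ_mem _ ((mem_cub n).1 hz).2) ((mem_cub n).1 hz).1)
    refine hp_of_cont (isCompact_cub n (isCompact_P _ _ _)) hc ?_ ?_ ?_ ?_
    · intro σ hσ z hz
      rw [mem_cub, dec1_enc, dec2_enc]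
      exact ⟨hm σ hσ z hz, ((mem_cub n).1 hz).2⟩
    · intro σ hσ z hz
      obtain ⟨h1, h2⟩ := (mem_bdc n).1 hz
      rw [mem_bdc, mem_cub, dec1_enc, dec2_enc]
      exact ⟨⟨hm σ hσ z h1, ((mem_cub n).1 h1).2⟩, h2⟩
    · intro z hz
      obtain ⟨h3, h4⟩ := (mem_cub n).1 hz
      show enc n (htB T ℓ t (0, (C.ψ (dec2 n z), dec1 n z))) (dec2 n z) = z
      rw [h.htB_zero ht.le (C.ψ_mem _ h4) h3, enc_dec]
    · intro z hz
      obtain ⟨h3, h4⟩ := (mem_cub n).1 hz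
      show enc n (htB T ℓ t (1, (C.ψ (dec2 n z), dec1 n z))) (dec2 n z) =
        enc n (cut T ℓ (t + 2 * ℓ) (back T ℓ t (C.ψ (dec2 n z), dec1 n z)))
          (C.φ (back T ℓ t (C.ψ (dec2 n z), dec1 n z) 0))
      rw [h.htB_one ht.le (C.ψ_mem _ h4) h3, h.back_zero (p := (C.ψ (dec2 n z), dec1 n z)) ht.le
        (C.ψ_mem _ h4) h3, C.φψ _ h4]

/-- **paths with end `b` over a handle** -/
noncomputable def cellPF (b : M) (C : Cell M n D S) (hD : IsClosed D) (hS : S ⊆ D)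
    (h : Tr D x₀ ℓ T) :
    SpIntl (ovr evz (fun t => PF b t) D) (ovr evz (fun t => PF b t) S)
      (fun t => cub n (P x₀ b t)) (fun t => bdc n (P x₀ b t)) ℓ where
  f _ w := enc n (lcut T ℓ w) (C.φ (w 0))
  g _ z := lback T ℓ (C.ψ (dec2 n z), dec1 n z)
  f_map t ht := by
    refine map_of_cont (isCompact_ovrPB hD ht.le) ?_ fun w hw => ?_
    · exact enc_cont n (continuousOn_lcutB h ht.le)
        (C.φ_cont.comp (continuousOn_eval continuousOn_id continuousOn_const) fun w hw => hw.2)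
    · rw [mem_cub, dec1_enc, dec2_enc]
      exact ⟨lcut_memB h ht.le hw, C.φ_mem _ hw.2⟩
  f_sub t ht := by
    intro w hw
    have hw' : w ∈ PFD b D t := ⟨hw.1, hS hw.2⟩
    rw [mem_bdc, mem_cub, dec1_enc, dec2_enc]
    exact ⟨⟨lcut_memB h ht.le hw', C.φ_mem _ hw'.2⟩, C.φ_bd _ hw.2⟩
  g_map t ht := by
    refine map_of_cont (isCompact_cub n (isCompact_P _ _ _)) ?_ fun z hz => ?_
    · refine continuousOn_lback'B (b := b) h ht.le ?_ (dec1_cont n).continuousOn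
        (fun z hz => C.ψ_mem _ ((mem_cub n).1 hz).2) fun z hz => ((mem_cub n).1 hz).1
      exact C.ψ_cont.comp (dec2_cont n).continuousOn fun z hz => ((mem_cub n).1 hz).2
    · exact lback_memDB (p := (C.ψ (dec2 n z), dec1 n z)) h ht.le (C.ψ_mem _ ((mem_cub n).1 hz).2)
        ((mem_cub n).1 hz).1
  g_sub t ht := by
    intro z hz
    obtain ⟨h1, h2⟩ := (mem_bdc n).1 hz
    obtain ⟨h3, h4⟩ := (mem_cub n).1 h1
    have h5 := C.ψ_mem _ h4
    have h6 := lback_memDB (p := (C.ψ (dec2 n z), dec1 n z)) h ht.le h5 h3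
    refine ⟨h6.1, ?_⟩
    show lback T ℓ (C.ψ (dec2 n z), dec1 n z) 0 ∈ S
    rw [lback_zeroB (p := (C.ψ (dec2 n z), dec1 n z)) h ht.le h5 h3]
    exact C.ψ_bd _ h4 h2
  f_nat s t hs hst := by
    have hc : ContinuousOn (fun p : ℝ × (ℝ →ᵇ M) => enc n (lcut T ℓ p.2)
        (C.φ (p.2 0))) (Icc (0:ℝ) 1 ×ˢ ovr evz (fun t => PF b t) D s) := by
      refine enc_cont n ?_ (C.φ_cont.comp (continuousOn_eval continuousOn_snd continuousOn_const)
        fun p hp => hp.2.2)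
      exact continuousOn_lcut'B h hs.le continuousOn_snd fun p hp => hp.2
    have hm : ∀ w ∈ PFD b D s, lcut T ℓ w ∈ P x₀ b (t + ℓ) := fun w hw =>
      P_mono (by linarith) (lcut_memB h hs.le hw)
    refine hp_of_cont (isCompact_ovrPB hD hs.le) hc ?_ ?_ ?_ ?_
    · intro σ hσ w hw
      rw [mem_cub, dec1_enc, dec2_enc]
      exact ⟨hm w hw, C.φ_mem _ hw.2⟩
    · intro σ hσ w hw
      rw [mem_bdc, mem_cub, dec1_enc, dec2_enc]
      exact ⟨⟨hm w ⟨hw.1, hS hw.2⟩, C.φ_mem _ (hS hw.2)⟩, C.φ_bd _ hw.2⟩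
    · exact fun w hw => rfl
    · exact fun w hw => rfl
  g_nat s t hs hst := by
    have hc : ContinuousOn (fun p : ℝ × Cu (ℝ →ᵇ M) n => lback T ℓ
        (C.ψ (dec2 n p.2), dec1 n p.2)) (Icc (0:ℝ) 1 ×ˢ cub n (P x₀ b s)) := by
      refine continuousOn_lback'B (b := b) h hs.le ?_
        ((dec1_cont n).comp_continuousOn continuousOn_snd) ?_ ?_
      · exact C.ψ_cont.comp ((dec2_cont n).comp_continuousOn continuousOn_snd)
          fun p hp => ((mem_cub n).1 hp.2).2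
      · exact fun p hp => C.ψ_mem _ ((mem_cub n).1 hp.2).2
      · exact fun p hp => ((mem_cub n).1 hp.2).1
    have hm : ∀ z ∈ cub n (P x₀ b s), lback T ℓ (C.ψ (dec2 n z), dec1 n z) ∈
          P (C.ψ (dec2 n z)) b (t + ℓ) := fun z hz =>
      P_mono (by linarith) (lback_memB (p := (C.ψ (dec2 n z), dec1 n z)) h
        hs.le (C.ψ_mem _ ((mem_cub n).1 hz).2) ((mem_cub n).1 hz).1)
    refine hp_of_cont (isCompact_cub n (isCompact_P _ _ _)) hc ?_ ?_ ?_ ?_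
    · intro σ hσ z hz
      refine ⟨P_subset_PF (hm z hz), ?_⟩
      show lback T ℓ (C.ψ (dec2 n z), dec1 n z) 0 ∈ D
      rw [eq_left (hm z hz) le_rfl]
      exact C.ψ_mem _ ((mem_cub n).1 hz).2
    · intro σ hσ z hz
      obtain ⟨h1, h2⟩ := (mem_bdc n).1 hz
      obtain ⟨h3, h4⟩ := (mem_cub n).1 h1
      refine ⟨P_subset_PF (hm z h1), ?_⟩
      show lback T ℓ (C.ψ (dec2 n z), dec1 n z) 0 ∈ S
      rw [eq_left (hm z h1) le_rfl]
      exact C.ψ_bd _ h4 h2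
    · exact fun z hz => rfl
    · exact fun z hz => rfl
  gf t ht := by
    have hn := h.nonneg
    have hm : ∀ σ ∈ Icc (0:ℝ) 1, ∀ w ∈ PFD b D t, lhA T ℓ (σ, w) ∈ P (w 0) b (t + ℓ + ℓ) :=
      fun σ hσ w hw => P_mono (by linarith) (lhA_memB h ht.le hσ.1 hw)
    have hm2 : ∀ σ ∈ Icc (0:ℝ) 1, ∀ w ∈ PFD b D t,
        lback T ℓ (C.K (w 0, σ), lcut T ℓ w) ∈ P (C.K (w 0, σ)) b (t + ℓ + ℓ) :=
      fun σ hσ w hw => lback_memB (p := (C.K (w 0, σ), lcut T ℓ w)) h (by linarith)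
        (C.K_mem _ hw.2 _ hσ) (lcut_memB h ht.le hw)
    refine hp_of_cont (isCompact_ovrPB hD ht.le)
      (F := cc (lhA T ℓ) (fun p => lback T ℓ (C.K (p.2 0, p.1), lcut T ℓ p.2))) ?_ ?_ ?_ ?_ ?_
    · refine cc_cont (continuousOn_lhAB h ht.le) ?_ fun w hw => ?_
      · refine continuousOn_lback'B (b := b) (t := t + ℓ) h (by linarith) ?_ ?_ ?_ ?_
        · refine C.K_cont.comp ((continuousOn_eval continuousOn_snd continuousOn_const).prodMk
            continuousOn_fst) fun p hp => ⟨hp.2.2, hp.1⟩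
        · exact (continuousOn_lcutB h ht.le).comp continuousOn_snd fun p hp => hp.2
        · exact fun p hp => C.K_mem _ hp.2.2 _ hp.1
        · exact fun p hp => lcut_memB h ht.le hp.2
      · rw [lhA_oneB h hw]
        show _ = lback T ℓ (C.K (w 0, 0), lcut T ℓ w)
        rw [C.K_zero (w 0) hw.2]
    · intro σ hσ w hw
      refine cc_mem (fun s hs => ?_) (fun s hs => ?_) hσ
      · refine ⟨P_subset_PF (hm s hs w hw), ?_⟩
        show (lhA T ℓ (s, w)) 0 ∈ D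
        rw [eq_left (hm s hs w hw) le_rfl]
        exact hw.2
      · refine ⟨P_subset_PF (hm2 s hs w hw), ?_⟩
        show (lback T ℓ (C.K (w 0, s), lcut T ℓ w)) 0 ∈ D
        rw [eq_left (hm2 s hs w hw) le_rfl]
        exact C.K_mem _ hw.2 _ hs
    · intro σ hσ w hw
      have hw' : w ∈ PFD b D t := ⟨hw.1, hS hw.2⟩
      refine cc_mem (fun s hs => ?_) (fun s hs => ?_) hσ
      · refine ⟨P_subset_PF (hm s hs w hw'), ?_⟩
        show (lhA T ℓ (s, w)) 0 ∈ S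
        rw [eq_left (hm s hs w hw') le_rfl]
        exact hw.2
      · refine ⟨P_subset_PF (hm2 s hs w hw'), ?_⟩
        show (lback T ℓ (C.K (w 0, s), lcut T ℓ w)) 0 ∈ S
        rw [eq_left (hm2 s hs w hw') le_rfl]
        exact C.K_bd _ hw.2 _ hs
    · intro w hw
      rw [cc_zero]
      exact lhA_zeroB h hw
    · intro w hw
      rw [cc_one]
      show lback T ℓ (C.K (w 0, 1), lcut T ℓ w) = lback T ℓ
        (C.ψ (dec2 n (enc n (lcut T ℓ w) (C.φ (w 0)))), dec1 n (enc n (lcut T ℓ w) (C.φ (w 0))))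
      rw [dec1_enc, dec2_enc, C.K_one (w 0) hw.2]
  fg t ht := by
    have hn := h.nonneg
    have hc : ContinuousOn (fun p : ℝ × Cu (ℝ →ᵇ M) n => enc n
        (lhB T ℓ (p.1, (C.ψ (dec2 n p.2), dec1 n p.2))) (dec2 n p.2))
        (Icc (0:ℝ) 1 ×ˢ cub n (P x₀ b t)) := by
      have hd2 : ContinuousOn (fun p : ℝ × Cu (ℝ →ᵇ M) n => dec2 n p.2)
          (Icc (0:ℝ) 1 ×ˢ cub n (P x₀ b t)) := (dec2_cont n).comp_continuousOn continuousOn_snd
      have hd1 : ContinuousOn (fun p : ℝ × Cu (ℝ →ᵇ M) n => dec1 n p.2)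
          (Icc (0:ℝ) 1 ×ˢ cub n (P x₀ b t)) := (dec1_cont n).comp_continuousOn continuousOn_snd
      refine enc_cont n ?_ hd2
      refine (continuousOn_lhBB (b := b) h ht.le).comp (continuousOn_fst.prodMk ((C.ψ_cont.comp hd2
        fun p hp => ((mem_cub n).1 hp.2).2).prodMk hd1)) fun p hp => ?_
      exact ⟨hp.1, C.ψ_mem _ ((mem_cub n).1 hp.2).2, ((mem_cub n).1 hp.2).1⟩
    have hm : ∀ σ ∈ Icc (0:ℝ) 1, ∀ z ∈ cub n (P x₀ b t),
        lhB T ℓ (σ, (C.ψ (dec2 n z), dec1 n z)) ∈ P x₀ b (t + ℓ + ℓ) := fun σ hσ z hz =>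
      P_mono (by linarith) (lhB_memB h ht.le hσ.1 (C.ψ_mem _ ((mem_cub n).1 hz).2)
        ((mem_cub n).1 hz).1)
    refine hp_of_cont (isCompact_cub n (isCompact_P _ _ _)) hc ?_ ?_ ?_ ?_
    · intro σ hσ z hz
      rw [mem_cub, dec1_enc, dec2_enc]
      exact ⟨hm σ hσ z hz, ((mem_cub n).1 hz).2⟩
    · intro σ hσ z hz
      obtain ⟨h1, h2⟩ := (mem_bdc n).1 hz
      rw [mem_bdc, mem_cub, dec1_enc, dec2_enc]
      exact ⟨⟨hm σ hσ z h1, ((mem_cub n).1 h1).2⟩, h2⟩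
    · intro z hz
      obtain ⟨h3, h4⟩ := (mem_cub n).1 hz
      show enc n (lhB T ℓ (0, (C.ψ (dec2 n z), dec1 n z))) (dec2 n z) = z
      rw [lhB_zeroB h (C.ψ_mem _ h4) h3, enc_dec]
    · intro z hz
      obtain ⟨h3, h4⟩ := (mem_cub n).1 hz
      show enc n (lhB T ℓ (1, (C.ψ (dec2 n z), dec1 n z))) (dec2 n z) =
        enc n (lcut T ℓ (lback T ℓ (C.ψ (dec2 n z), dec1 n z)))
          (C.φ (lback T ℓ (C.ψ (dec2 n z), dec1 n z) 0))
      rw [lhB_oneB h ht.le (C.ψ_mem _ h4) h3, lback_zeroB (p := (C.ψ (dec2 n z), dec1 n z)) h ht.le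
        (C.ψ_mem _ h4) h3, C.φψ _ h4]

/-- tracks over a handle -/
theorem exists_trC [PathConnectedSpace M] (C : Cell M n D S) (hD : IsClosed D) (x₀ : M) {ρ : ℝ}
    (hρ : 0 < ρ) (hU : LS.UniqSeg M ρ) : ∃ ℓ T, Tr D x₀ ℓ T := by
  obtain ⟨H, hc, h0, h1⟩ := C.exists_null x₀
  exact exists_tracks hρ hU hD.isCompact hc h0 h1

/-- tracks of the same time over all handles -/
theorem exists_trD [PathConnectedSpace M] {d h : ℕ} (C : CellDec M d h) (x₀ : M) {ρ : ℝ}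
    (hρ : 0 < ρ) (hU : LS.UniqSeg M ρ) :
    ∃ ℓ, 0 ≤ ℓ ∧ ∀ j, j ≤ h → ∃ T, Tr (C.D j) x₀ ℓ T := by
  have key : ∀ m : ℕ, ∃ ℓ, 0 ≤ ℓ ∧ ∀ j, j ≤ h → j < m → ∃ T, Tr (C.D j) x₀ ℓ T := by
    intro m
    induction m with
    | zero => exact ⟨0, le_rfl, fun j _ hj => absurd hj (Nat.not_lt_zero _)⟩
    | succ m ih =>
      obtain ⟨ℓ, h0, ih⟩ := ih
      by_cases hm : m ≤ h
      · obtain ⟨ℓ', T, hT⟩ := exists_trC (C.cell m hm) (C.closed m) x₀ hρ hU
        refine ⟨max ℓ ℓ', h0.trans (le_max_left _ _), fun j hj hjm => ?_⟩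
        rcases Nat.lt_succ_iff_lt_or_eq.1 hjm with h' | rfl
        · obtain ⟨T', hT'⟩ := ih j hj h'
          exact ⟨T', hT'.le (le_max_left _ _)⟩
        · exact ⟨T, hT.le (le_max_right _ _)⟩
      · exact ⟨ℓ, h0, fun j hj hjm => ih j hj (by omega)⟩
  obtain ⟨ℓ, h0, hk⟩ := key (h + 1)
  exact ⟨ℓ, h0, fun j hj => hk j hj (by omega)⟩

end Vale.Agent.P216.H456C
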