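import Vale.Agent.P216.H456C.BallHP
import Vale.Agent.P216.H133C.Frames

/-!
# P216-C, block [THOM]: the isometric frames of `HP^m`
-/

open Set Quaternion

namespace Vale.Agent.P216.H456C

open Vale.Agent.P216.H133C

/-! ### The function `f` -/

section Tp

variable {N : ℕ}

theorem sum_norm_prj' {v : Fin N → Quaternion ℝ} (hv : ns v = 1) :
    ∑ i, ∑ j, ‖prj v i j‖ ^ 2 = 1 := by
  have h : ∀ i, ∑ j, ‖prj v i j‖ ^ 2 = ‖v i‖ ^ 2 * ns v := fun i => by
    rw [ns, Finset.mul_sum]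
    exact Finset.sum_congr rfl fun j _ => by rw [norm_prj, mul_pow]
  simp only [h, hv, mul_one]
  exact hv

theorem sum_norm_sub' {a b : Mt N} (ha : a ∈ HP N) (hb : b ∈ HP N) :
    ∑ i, ∑ j, ‖a i j - b i j‖ ^ 2 = 2 - 2 * tp a b := by
  obtain ⟨u, hu, rfl⟩ := ha
  obtain ⟨v, hv, rfl⟩ := hb
  have h : ∀ i j, ‖prj u i j - prj v i j‖ ^ 2 =
      ‖prj u i j‖ ^ 2 + ‖prj v i j‖ ^ 2 - 2 * (prj u i j * prj v j i).re := fun i j => by
    rw [norm_sub_sq_real, Quaternion.inner_def]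
    have : star (prj v i j) = prj v j i := by
      rw [prj, prj, star_mul, star_star]
    rw [this]
    ring
  simp only [h, Finset.sum_sub_distrib, Finset.sum_add_distrib, sum_norm_prj' hu, sum_norm_prj' hv,
    tp, Finset.mul_sum]
  norm_num

theorem tp_le_one {a b : Mt N} (ha : a ∈ HP N) (hb : b ∈ HP N) : tp a b ≤ 1 := by
  have h := sum_norm_sub' ha hb
  have h1 : 0 ≤ ∑ i, ∑ j, ‖a i j - b i j‖ ^ 2 :=
    Finset.sum_nonneg fun i _ => Finset.sum_nonneg fun j _ => by positivity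
  linarith

theorem tp_eq_one {a b : Mt N} (ha : a ∈ HP N) (hb : b ∈ HP N) : tp a b = 1 ↔ a = b := by
  have h := sum_norm_sub' ha hb
  constructor
  · intro h1
    rw [h1] at h
    have h2 : ∑ i, ∑ j, ‖a i j - b i j‖ ^ 2 = 0 := by rw [h]; norm_num
    funext i j
    have h3 := (Finset.sum_eq_zero_iff_of_nonneg fun i _ =>
      Finset.sum_nonneg fun j _ => by positivity).1 h2 i (Finset.mem_univ i)
    have h4 := (Finset.sum_eq_zero_iff_of_nonneg fun j _ => by positivity).1 h3 j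
      (Finset.mem_univ j)
    have h5 : ‖a i j - b i j‖ = 0 := by simpa using h4
    exact sub_eq_zero.1 (norm_eq_zero.1 h5)
  · rintro rfl
    simp only [sub_self, norm_zero, ne_eq, OfNat.ofNat_ne_zero, not_false_eq_true, zero_pow,
      Finset.sum_const_zero] at h
    linarith

end Tp

/-! ### The push -/

section Push

variable {m : ℕ}

/-- the diagonal matrix scaling the last coordinate -/
noncomputable def sc (m : ℕ) (s : ℝ) : Mt (m + 1) :=
  fun i j => if i = j then (if i = Fin.last m then ((1 - s : ℝ) : Quaternion ℝ) else 1) else 0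

theorem mv_sc_last (s : ℝ) (u : Fin (m + 1) → Quaternion ℝ) :
    mv (sc m s) u (Fin.last m) = (1 - s) • u (Fin.last m) := by
  simp only [mv, sc, ite_mul, zero_mul, Finset.sum_ite_eq, Finset.mem_univ, if_true]
  rw [Quaternion.coe_mul_eq_smul]

theorem mv_sc_ne (s : ℝ) (u : Fin (m + 1) → Quaternion ℝ) {i : Fin (m + 1)}
    (hi : i ≠ Fin.last m) : mv (sc m s) u i = u i := by
  simp only [mv, sc, ite_mul, zero_mul, Finset.sum_ite_eq, Finset.mem_univ, if_true, if_neg hi,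
    one_mul]

theorem continuous_sc : Continuous (sc m) := by
  unfold sc
  refine continuous_pi fun i => continuous_pi fun j => ?_
  split_ifs
  · exact Quaternion.continuous_coe.comp (by fun_prop)
  · exact continuous_const
  · exact continuous_const

theorem ns_sc_pos {u : Fin (m + 1) → Quaternion ℝ} (hu : ns u = 1)
    (h : dg (prj u) (Fin.last m) < 1) (s : ℝ) : 0 < ns (mv (sc m s) u) := by
  rw [dg_prj] at h
  by_contra hcon
  have h0 := ns_eq_zero (le_antisymm (not_lt.1 hcon) (ns_nonneg _))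
  have h1 : ns u = ‖u (Fin.last m)‖ ^ 2 := by
    rw [ns, Finset.sum_eq_single (Fin.last m)]
    · intro i _ hi
      have h2 := congrFun h0 i
      rw [mv_sc_ne s u hi] at h2
      rw [h2, Pi.zero_apply, norm_zero]
      norm_num
    · simp
  linarith

theorem trc_sc_pos {a : Mt (m + 1)} (ha : a ∈ HP (m + 1)) (h : dg a (Fin.last m) < 1) (s : ℝ) :
    0 < trc (cj (sc m s) a) := by
  obtain ⟨u, hu, rfl⟩ := ha
  rw [cj_prj, trc_prj]
  exact ns_sc_pos hu h s

theorem act_sc_mem {a : Mt (m + 1)} (ha : a ∈ HP (m + 1)) (h : dg a (Fin.last m) < 1) (s : ℝ) :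
    act (sc m s) a ∈ HP (m + 1) := by
  obtain ⟨u, hu, rfl⟩ := ha
  rw [act_prj]
  exact npr_mem (ns_sc_pos hu h s)

open Classical in
/-- the push -/
noncomputable def pu (p : HP (m + 1) × ℝ) : HP (m + 1) :=
  if h : act (sc m p.2) p.1.1 ∈ HP (m + 1) then ⟨act (sc m p.2) p.1.1, h⟩ else p.1

theorem pu_val {p : HP (m + 1) × ℝ} (h : dg p.1.1 (Fin.last m) < 1) :
    (pu p).1 = act (sc m p.2) p.1.1 := by
  rw [pu, dif_pos (act_sc_mem p.1.2 h p.2)]

theorem continuousOn_pu {S : Set (HP (m + 1) × ℝ)} (hS : ∀ p ∈ S, dg p.1.1 (Fin.last m) < 1) :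
    ContinuousOn pu S := by
  rw [continuousOn_iff_continuous_domRestrict]
  refine Continuous.congr (f := fun p : S => (⟨act (sc m p.1.2) p.1.1.1,
    act_sc_mem p.1.1.2 (hS p.1 p.2) p.1.2⟩ : HP (m + 1))) ?_ fun p => ?_
  · refine Continuous.subtype_mk ?_ _
    refine continuousOn_act.comp_continuous (f := fun p : S => ((sc m p.1.2), p.1.1.1)) ?_
      fun p => trc_sc_pos p.1.1.2 (hS p.1 p.2) p.1.2
    have := continuous_sc (m := m)
    exact (this.comp (continuous_snd.comp continuous_subtype_val)).prodMk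
      (continuous_subtype_val.comp (continuous_fst.comp continuous_subtype_val))
  · refine Subtype.ext ?_
    exact (pu_val (hS p.1 p.2)).symm

theorem pu_zero {a : HP (m + 1)} (h : dg a.1 (Fin.last m) < 1) : pu (a, 0) = a := by
  refine Subtype.ext ?_
  rw [pu_val h]
  obtain ⟨⟨u, hu, hP⟩, -⟩ : (∃ v, ns v = 1 ∧ a.1 = prj v) ∧ True := ⟨a.2, trivial⟩
  change act (sc m 0) a.1 = a.1
  rw [hP, act_prj]
  have : mv (sc m 0) u = u := by
    funext i
    rcases eq_or_ne i (Fin.last m) with rfl | hi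
    · rw [mv_sc_last, sub_zero, one_smul]
    · exact mv_sc_ne 0 u hi
  rw [this, npr_of_ns hu]

theorem dg_pu_one {a : HP (m + 1)} (h : dg a.1 (Fin.last m) < 1) :
    dg (pu (a, 1)).1 (Fin.last m) = 0 := by
  rw [pu_val h]
  obtain ⟨⟨u, hu, hP⟩, -⟩ : (∃ v, ns v = 1 ∧ a.1 = prj v) ∧ True := ⟨a.2, trivial⟩
  change dg (act (sc m 1) a.1) _ = 0
  rw [hP, act_prj, dg_npr, mv_sc_last, sub_self, zero_smul, norm_zero]
  norm_num

theorem exists_lt_of_dg {P : HP (m + 1)} (h : dg P.1 (Fin.last m) = 0) :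
    ∃ i < m, P ∈ Dj m i := by
  obtain ⟨j, hj, hP⟩ := cov_Dj P
  refine ⟨j, lt_of_le_of_ne hj ?_, hP⟩
  rintro rfl
  have h1 := dg_pos le_rfl hP
  have h2 : (ix (le_refl j)) = Fin.last j := rfl
  rw [h2, h] at h1
  exact lt_irrefl _ h1

end Push

/-! ### The frames -/

section Main

variable {m : ℕ}

/-- the index -/
def ixN (m j : ℕ) : Fin (m + 1) := if h : j < m + 1 then ⟨j, h⟩ else 0

theorem ixN_of {j : ℕ} (hj : j ≤ m) : ixN m j = ix hj := dif_pos (Nat.lt_succ_of_le hj)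

/-- the coordinate line -/
noncomputable def eP (j : Fin (m + 1)) : HP (m + 1) :=
  ⟨prj (Pi.single j 1), Pi.single j 1, ns_single j, rfl⟩

/-- the frame -/
noncomputable def gP (j : Fin (m + 1)) (q : HP (m + 1) × HP (m + 1)) : HP (m + 1) :=
  ⟨cj (rf (ax j q.1.1)) q.2.1, cj_rf_mem _ q.2.2⟩

theorem gP_gP (j : Fin (m + 1)) (b a : HP (m + 1)) : gP j (b, gP j (b, a)) = a :=
  Subtype.ext (cj_rf_rf _ a.2)

theorem continuousOn_gP (j : Fin (m + 1)) {S : Set (HP (m + 1))} (hS : ∀ b ∈ S, 0 < dg b.1 j) :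
    ContinuousOn (gP j) (S ×ˢ univ) := by
  rw [continuousOn_iff_continuous_domRestrict]
  refine Continuous.subtype_mk ?_ _
  have h1 : Continuous fun q : ↥(S ×ˢ (univ : Set (HP (m + 1)))) => rf (ax j q.1.1.1) := by
    have h2 : Continuous fun q : ↥(S ×ˢ (univ : Set (HP (m + 1)))) => ax j q.1.1.1 :=
      (continuousOn_ax j).comp_continuous (continuous_subtype_val.comp
        (continuous_fst.comp continuous_subtype_val)) fun q => hS q.1.1 q.2.1
    exact continuousOn_rf.comp_continuous h2 fun q => ns_ax_pos q.1.1.2 (hS q.1.1 q.2.1)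
  have h3 : Continuous fun q : ↥(S ×ˢ (univ : Set (HP (m + 1)))) => (q.1.2.1 : Mt (m + 1)) :=
    continuous_subtype_val.comp (continuous_snd.comp continuous_subtype_val)
  have h4 : Continuous fun q : ↥(S ×ˢ (univ : Set (HP (m + 1)))) =>
      ((rf (ax j q.1.1.1), q.1.2.1) : Mt (m + 1) × Mt (m + 1)) := h1.prodMk h3
  have h5 := (continuous_cj (N := m + 1)).comp h4
  exact h5

theorem gP_self {j : Fin (m + 1)} {b : HP (m + 1)} (h : 0 < dg b.1 j) : gP j (b, b) = eP j :=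
  Subtype.ext (cj_rf_ax b.2 h)

theorem tp_gP {j : Fin (m + 1)} {b : HP (m + 1)} (h : 0 < dg b.1 j) (a : HP (m + 1)) :
    tp a.1 b.1 = tp (gP j (b, a)).1 (eP j).1 := by
  rw [← gP_self h]
  exact (tp_rf _ a.2 b.2).symm

theorem tp_eP (a : HP (m + 1)) (j : Fin (m + 1)) : tp a.1 (eP j).1 = dg a.1 j := tp_single a.2 j

/-- the point `(1, ..., 1)` -/
noncomputable def oneP (m : ℕ) : HP (m + 1) :=
  pt (fun _ => 1) 0 rfl

theorem oneP_mem {j : ℕ} (hj : j ≤ m) : oneP m ∈ Dj m j := by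
  intro i hi
  rw [dgN_of_lt (Nat.lt_succ_of_le hi), dgN_of_lt (Nat.lt_succ_of_le hj)]
  change dg (npr _) _ ≤ dg (npr _) _
  rw [dg_npr, dg_npr]

theorem continuous_tpP : Continuous fun q : HP (m + 1) × HP (m + 1) => tp q.1.1 q.2.1 := by
  have h1 : Continuous fun q : HP (m + 1) × HP (m + 1) => (q.1.1 : Mt (m + 1)) :=
    continuous_subtype_val.comp continuous_fst
  have h2 : Continuous fun q : HP (m + 1) × HP (m + 1) => (q.2.1 : Mt (m + 1)) :=
    continuous_subtype_val.comp continuous_snd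
  have h3 : Continuous fun q : HP (m + 1) × HP (m + 1) =>
      ((q.1.1, q.2.1) : Mt (m + 1) × Mt (m + 1)) := h1.prodMk h2
  have h4 := (continuous_tp (N := m + 1)).comp h3
  exact h4

/-- **The isometric frames of `HP^m`.** -/
noncomputable def framesHP (m : ℕ) : Frames (cellDecHP m) where
  f q := tp q.1.1 q.2.1
  f_cont := continuous_tpP
  f_le q := tp_le_one q.1.2 q.2.2
  f_one q := (tp_eq_one q.1.2 q.2.2).trans Subtype.ext_iff.symm
  p j := eP (ixN m j)
  G j := gP (ixN m j)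
  G' j := gP (ixN m j)
  G_cont j hj := continuousOn_gP _ fun b hb => by rw [ixN_of hj]; exact dg_pos hj hb
  G'_cont j hj := continuousOn_gP _ fun b hb => by rw [ixN_of hj]; exact dg_pos hj hb
  GG' j _ b _ a := gP_gP _ b a
  G'G j _ b _ a := gP_gP _ b a
  fG j hj b hb a := tp_gP (by rw [ixN_of hj]; exact dg_pos hj hb) a
  b₀ := oneP m
  b₀_mem _ hj := oneP_mem hj
  κ₀ := 0
  κ₀_lt := one_pos
  ball j _ κ h0 h1 := by
    have e1 : {a : HP (m + 1) | κ ≤ tp a.1 (eP (ixN m j)).1} = {P | κ ≤ dg P.1 (ixN m j)} := by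
      ext a
      change κ ≤ tp a.1 (eP (ixN m j)).1 ↔ κ ≤ dg a.1 (ixN m j)
      rw [tp_eP]
    have e2 : {a : HP (m + 1) | tp a.1 (eP (ixN m j)).1 = κ} = {P | dg P.1 (ixN m j) = κ} := by
      ext a
      change tp a.1 (eP (ixN m j)).1 = κ ↔ dg a.1 (ixN m j) = κ
      rw [tp_eP]
    change Nonempty (Cell _ (4 * m) {a : HP (m + 1) | κ ≤ tp a.1 (eP (ixN m j)).1}
      {a : HP (m + 1) | tp a.1 (eP (ixN m j)).1 = κ})
    rw [e1, e2]
    exact ⟨ballHP _ h0 h1⟩
  push κ _ h1 := by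
    have hl : ixN m m = Fin.last m := ixN_of le_rfl
    have key : ∀ a : HP (m + 1), tp a.1 (eP (ixN m m)).1 ≤ κ → dg a.1 (Fin.last m) < 1 := by
      intro a ha
      rw [tp_eP, hl] at ha
      exact ha.trans_lt h1
    refine ⟨pu, continuousOn_pu fun p hp => key p.1 hp.1, fun a ha => pu_zero (key a ha),
      fun a ha => ?_⟩
    exact exists_lt_of_dg (dg_pu_one (key a ha))

end Main

end Vale.Agent.P216.H456C
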