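import Vale.Agent.P216.H133C.Frames

/-!
# P216-C, block [THOM]: transport of frames along a homeomorphism
-/

open Set

namespace Vale.Agent.P216.H456C

open Vale.Agent.P216.H133C

variable {M N : Type} [TopologicalSpace M] [TopologicalSpace N] {d h : ℕ} {C : CellDec M d h}

/-- Transport of frames. -/
noncomputable def framesTr (F : Frames C) (e : N ≃ₜ M) : Frames (C.trans e) where
  f q := F.f (e q.1, e q.2)
  f_cont := F.f_cont.comp ((e.continuous.comp continuous_fst).prodMk
    (e.continuous.comp continuous_snd))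
  f_le _ := F.f_le _
  f_one q := (F.f_one _).trans e.injective.eq_iff
  p j := e.symm (F.p j)
  G j q := e.symm (F.G j (e q.1, e q.2))
  G' j q := e.symm (F.G' j (e q.1, e q.2))
  G_cont j hj := by
    refine e.symm.continuous.comp_continuousOn ((F.G_cont j hj).comp
      (((e.continuous.comp continuous_fst).prodMk (e.continuous.comp continuous_snd)).continuousOn)
      fun q hq => ⟨hq.1, mem_univ _⟩)
  G'_cont j hj := by
    refine e.symm.continuous.comp_continuousOn ((F.G'_cont j hj).comp
      (((e.continuous.comp continuous_fst).prodMk (e.continuous.comp continuous_snd)).continuousOn)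
      fun q hq => ⟨hq.1, mem_univ _⟩)
  GG' j hj b hb a := by
    change e.symm (F.G j (e b, e (e.symm (F.G' j (e b, e a))))) = a
    rw [e.apply_symm_apply, F.GG' j hj (e b) hb, e.symm_apply_apply]
  G'G j hj b hb a := by
    change e.symm (F.G' j (e b, e (e.symm (F.G j (e b, e a))))) = a
    rw [e.apply_symm_apply, F.G'G j hj (e b) hb, e.symm_apply_apply]
  fG j hj b hb a := by
    change F.f (e a, e b) = F.f (e (e.symm (F.G j (e b, e a))), e (e.symm (F.p j)))
    rw [e.apply_symm_apply, e.apply_symm_apply, F.fG j hj (e b) hb (e a)]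
  b₀ := e.symm F.b₀
  b₀_mem j hj := by
    change e (e.symm F.b₀) ∈ C.D j
    rw [e.apply_symm_apply]
    exact F.b₀_mem j hj
  κ₀ := F.κ₀
  κ₀_lt := F.κ₀_lt
  ball j hj κ h0 h1 := by
    obtain ⟨B⟩ := F.ball j hj κ h0 h1
    have B' := B.trans e
    have e1 : {a : N | κ ≤ F.f (e a, e (e.symm (F.p j)))} = e ⁻¹' {a | κ ≤ F.f (a, F.p j)} := by
      rw [e.apply_symm_apply]
      rfl
    have e2 : {a : N | F.f (e a, e (e.symm (F.p j))) = κ} = e ⁻¹' {a | F.f (a, F.p j) = κ} := by
      rw [e.apply_symm_apply]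
      rfl
    change Nonempty (Cell N (d * h) {a : N | κ ≤ F.f (e a, e (e.symm (F.p j)))}
      {a : N | F.f (e a, e (e.symm (F.p j))) = κ})
    rw [e1, e2]
    exact ⟨B'⟩
  push κ h0 h1 := by
    obtain ⟨P, hP, hP0, hP1⟩ := F.push κ h0 h1
    have key : ∀ a : N, F.f (e a, e (e.symm (F.p h))) ≤ κ → F.f (e a, F.p h) ≤ κ := by
      intro a ha
      rwa [e.apply_symm_apply] at ha
    refine ⟨fun q => e.symm (P (e q.1, q.2)), ?_, fun a ha => ?_, fun a ha => ?_⟩
    · refine e.symm.continuous.comp_continuousOn (hP.comp ?_ fun q hq => ⟨key q.1 hq.1, hq.2⟩)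
      exact ((e.continuous.comp continuous_fst).prodMk continuous_snd).continuousOn
    · change e.symm (P (e a, 0)) = a
      rw [hP0 _ (key a ha), e.symm_apply_apply]
    · obtain ⟨i, hi, hm⟩ := hP1 _ (key a ha)
      refine ⟨i, hi, ?_⟩
      change e (e.symm (P (e a, 1))) ∈ C.D i
      rw [e.apply_symm_apply]
      exact hm

end Vale.Agent.P216.H456C
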