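import Vale.Agent.P216.H456C.ThomAbs
import Vale.Agent.P216.H456C.FramesHP
import Vale.Agent.P216.H456C.FramesTr
import Vale.Agent.P216.H133C.ThomC
import Vale.Agent.P216.H892.CellCoh
import Vale.Agent.P216.H893.CaBall

/-!
# P216-C, block [THOM], assembly: Thom cochains for all metrics on `HP^m` and `CaP²`
-/

open Set

namespace Vale.Agent.P216.H456C

open Vale.Agent.P216.H133C

/-- **Thom cochains from isometric frames.** -/
theorem thomOut_frames {M : Type} [MetricSpace M] [CompactSpace M] [PathConnectedSpace M]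
    {d h : ℕ} {C : CellDec M d h} (F : Frames C) (hd : 2 ≤ d) (hh : 1 ≤ h) :
    ThomOut M (d * h) := by
  refine thomOut_of F.f_cont F.f_le (fun p hp => (F.f_one p).1 hp) fun k _ h2 =>
    ⟨F.κ₀, F.κ₀_lt, fun κ h0 h1 => F.thom_class ?_ ?_ h2 h0 h1 hd⟩
  · intro x
    refine H892.c1 C h2 (Nat.le_succ h) (d * h) ?_ x
    exact Nat.mul_lt_mul_of_pos_left (by omega) (by omega)
  · exact H892.c2 C h2 hd le_rfl

/-- **Thom cochains for every metric on `HP^m`.** -/
theorem thomOutHP {m : ℕ} (hm : 1 ≤ m) (M : Type) [MetricSpace M] [CompactSpace M]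
    [PathConnectedSpace M] (e : M ≃ₜ HP (m + 1)) : ThomOut M (4 * m) :=
  thomOut_frames (framesTr (framesHP m) e) (by norm_num) hm

/-- **Thom cochains for every metric on `CaP²`.** -/
theorem thomOutCa (M : Type) [MetricSpace M] [CompactSpace M] [PathConnectedSpace M]
    (e : M ≃ₜ H893.CaP2) : ThomOut M (8 * 2) :=
  thomOut_frames (framesTr H893.framesCa e) (by norm_num) (by norm_num)

end Vale.Agent.P216.H456C
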