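import Vale.Agent.P216.H456C.Refl

/-!
# P216-C, block [THOM]: the round balls `{κ ≤ P j j}` of `HP^m` are cells
-/

open Set Quaternion

namespace Vale.Agent.P216.H456C

open Vale.Agent.P216.H133C

variable {m : ℕ}

/-! ### Coordinates -/

/-- real coordinates of `m` quaternions -/
def fl4 (q : Fin m → Quaternion ℝ) (l : Fin (4 * m)) : ℝ :=
  tup (q (finProdFinEquiv.symm l).2) (finProdFinEquiv.symm l).1

/-- `m` quaternions of given coordinates -/
def uf4 (x : Fin (4 * m) → ℝ) (i : Fin m) : Quaternion ℝ :=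
  ofTup fun c => x (finProdFinEquiv (c, i))

theorem uf4_fl4 (q : Fin m → Quaternion ℝ) : uf4 (fl4 q) = q := by
  funext i
  simp only [uf4, fl4, Equiv.symm_apply_apply]
  exact ofTup_tup _

theorem fl4_uf4 (x : Fin (4 * m) → ℝ) : fl4 (uf4 x) = x := by
  funext l
  rw [fl4, uf4, tup_ofTup]
  simp only [Prod.mk.eta, Equiv.apply_symm_apply]

theorem en_fl4 (q : Fin m → Quaternion ℝ) : en (fl4 q) ^ 2 = ns q := by
  rw [en_sq, ns, ← finProdFinEquiv.sum_comp, Fintype.sum_prod_type_right]
  refine Finset.sum_congr rfl fun i _ => ?_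
  simp only [fl4, Equiv.symm_apply_apply]
  rw [← en_sq, en_tup]

theorem continuous_fl4 : Continuous (fl4 (m := m)) := by
  unfold fl4
  exact continuous_pi fun l => (continuous_apply _).comp (continuous_tup.comp (continuous_apply _))

theorem continuous_uf4 : Continuous (uf4 (m := m)) := by
  unfold uf4
  exact continuous_pi fun i => continuous_ofTup.comp (by fun_prop)

/-- insertion of `1` at the index `j` -/
def ins (j : Fin (m + 1)) (q : Fin m → Quaternion ℝ) : Fin (m + 1) → Quaternion ℝ :=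
  j.insertNth (α := fun _ => Quaternion ℝ) 1 q

theorem ins_same (j : Fin (m + 1)) (q : Fin m → Quaternion ℝ) : ins j q j = 1 :=
  Fin.insertNth_apply_same _ _ _

theorem ins_succAbove (j : Fin (m + 1)) (q : Fin m → Quaternion ℝ) (i : Fin m) :
    ins j q (j.succAbove i) = q i := Fin.insertNth_apply_succAbove _ _ _ _

theorem ns_ins (j : Fin (m + 1)) (q : Fin m → Quaternion ℝ) : ns (ins j q) = 1 + ns q := by
  rw [ns, Fin.sum_univ_succAbove _ j, ins_same, norm_one, one_pow]
  simp only [ins_succAbove]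
  rfl

theorem ins_eq {j : Fin (m + 1)} {w : Fin (m + 1) → Quaternion ℝ} (h : w j = 1) :
    ins j (fun i => w (j.succAbove i)) = w := by
  funext i
  rcases Fin.eq_self_or_eq_succAbove j i with rfl | ⟨i, rfl⟩
  · rw [ins_same, h]
  · rw [ins_succAbove]

theorem continuous_ins (j : Fin (m + 1)) : Continuous (ins j) := by
  refine continuous_pi fun i => ?_
  rcases Fin.eq_self_or_eq_succAbove j i with rfl | ⟨i, rfl⟩
  · simp only [ins_same]
    exact continuous_const
  · simp only [ins_succAbove]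
    exact continuous_apply i

/-! ### The ball -/

section

variable (j : Fin (m + 1)) {κ : ℝ}

/-- the radius -/
noncomputable def rr (κ : ℝ) : ℝ := √(κ⁻¹ - 1)

theorem rr_pos (h0 : 0 < κ) (h1 : κ < 1) : 0 < rr κ :=
  Real.sqrt_pos.2 (sub_pos.2 ((one_lt_inv₀ h0).2 h1))

theorem rr_sq (h0 : 0 < κ) (h1 : κ < 1) : rr κ ^ 2 = κ⁻¹ - 1 :=
  Real.sq_sqrt (sub_pos.2 ((one_lt_inv₀ h0).2 h1)).le

/-- the affine coordinates -/
noncomputable def af (P : Mt (m + 1)) : Fin (4 * m) → ℝ := fl4 fun i => ch j P (j.succAbove i)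

theorem en_af {P : Mt (m + 1)} (hP : P ∈ HP (m + 1)) (h : 0 < dg P j) :
    en (af j P) ^ 2 = (dg P j)⁻¹ - 1 := by
  have h1 := ns_ins j fun i => ch j P (j.succAbove i)
  rw [ins_eq (ch_self hP h)] at h1
  rw [af, en_fl4, ← ns_ch hP h, inv_inv, h1]
  ring

theorem continuousOn_af : ContinuousOn (af j) {P | 0 < dg P j} := by
  refine continuous_fl4.comp_continuousOn (continuousOn_pi.2 fun i => ?_)
  exact (continuous_apply _).comp_continuousOn (continuousOn_ch j)

/-- the point of given affine coordinates -/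
noncomputable def fa (x : Fin (4 * m) → ℝ) : HP (m + 1) := pt (ins j (uf4 x)) j (ins_same _ _)

theorem fa_val (x : Fin (4 * m) → ℝ) : (fa j x).1 = npr (ins j (uf4 x)) := rfl

theorem continuous_fa : Continuous (fa j) := by
  refine Continuous.subtype_mk ?_ _
  exact continuousOn_npr.comp_continuous ((continuous_ins j).comp continuous_uf4) fun y =>
    (zero_lt_one).trans_le (one_le_ns (ins_same _ _))

theorem dg_fa (x : Fin (4 * m) → ℝ) : dg (fa j x).1 j = (1 + en x ^ 2)⁻¹ := by
  rw [fa_val, dg_npr, ins_same, norm_one, one_pow, one_div, ns_ins]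
  congr 2
  conv_rhs => rw [← fl4_uf4 x]
  rw [en_fl4]

theorem af_fa (x : Fin (4 * m) → ℝ) : af j (fa j x).1 = x := by
  rw [af, fa_val]
  have : (fun i => ch j (npr (ins j (uf4 x))) (j.succAbove i)) = uf4 x := by
    funext i
    rw [ch_npr (ins_same _ _), ins_succAbove]
  rw [this, fl4_uf4]

theorem fa_af {P : HP (m + 1)} (h : 0 < dg P.1 j) : fa j (af j P.1) = P := by
  refine Subtype.ext ?_
  rw [fa_val, af, uf4_fl4, ins_eq (ch_self P.2 h), npr_ch P.2 h]

/-- **The balls are cells.** -/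
noncomputable def ballHP (h0 : 0 < κ) (h1 : κ < 1) :
    Cell (HP (m + 1)) (4 * m) {P | κ ≤ dg P.1 j} {P | dg P.1 j = κ} where
  φ P := toCb ((rr κ)⁻¹ • af j P.1)
  ψ y := fa j (rr κ • ofCb y)
  K p := p.1
  φ_cont := by
    refine continuous_toCb.comp_continuousOn ?_
    have h2 : ContinuousOn (fun P : HP (m + 1) => af j P.1) {P | κ ≤ dg P.1 j} :=
      (continuousOn_af j).comp continuous_subtype_val.continuousOn fun P hP => h0.trans_le hP
    exact continuousOn_const.fun_smul h2
  φ_mem P hP i := by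
    refine toCb_mem ?_ i
    have hd : 0 < dg P.1 j := h0.trans_le hP
    have hr := rr_pos h0 h1
    rw [en_smul, abs_of_pos (inv_pos.2 hr), inv_mul_le_iff₀ hr, mul_one]
    refine le_of_sq_le_sq ?_ hr.le
    rw [en_af j P.2 hd, rr_sq h0 h1]
    exact sub_le_sub_right (inv_anti₀ h0 hP) 1
  φ_bd P hP := by
    have hP' : dg P.1 j = κ := hP
    have hd : 0 < dg P.1 j := by rw [hP']; exact h0
    have hr := rr_pos h0 h1
    have hn : 0 < 4 * m := by
      rcases Nat.eq_zero_or_pos m with rfl | h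
      · have h2 := sum_dg P.2
        rw [Fin.sum_univ_succAbove _ j] at h2
        simp only [Finset.univ_eq_empty, Finset.sum_empty, add_zero] at h2
        rw [hP'] at h2
        exact absurd h2 h1.ne
      · omega
    refine toCb_bd hn ?_
    rw [en_smul, abs_of_pos (inv_pos.2 hr)]
    have h2 : en (af j P.1) = rr κ := by
      refine (pow_left_inj₀ (en_nonneg _) hr.le two_ne_zero).1 ?_
      rw [en_af j P.2 hd, rr_sq h0 h1, hP']
    rw [h2, inv_mul_cancel₀ hr.ne']
  ψ_cont := by
    refine Continuous.continuousOn ?_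
    have := continuous_ofCb (n := 4 * m)
    exact (continuous_fa j).comp (by fun_prop)
  ψ_mem y hy := by
    change κ ≤ dg (fa j (rr κ • ofCb y)).1 j
    have hr := rr_pos h0 h1
    have h2 : en (rr κ • ofCb y) ^ 2 ≤ κ⁻¹ - 1 := by
      rw [en_smul, abs_of_pos hr, mul_pow, rr_sq h0 h1]
      have h3 := en_ofCb_le hy
      have h4 : 0 ≤ κ⁻¹ - 1 := by rw [← rr_sq h0 h1]; positivity
      have h5 : en (ofCb y) ^ 2 ≤ 1 := pow_le_one₀ (en_nonneg _) h3
      nlinarith
    rw [dg_fa, le_inv_comm₀ h0 (by positivity)]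
    linarith
  ψ_bd y hy hb := by
    change dg (fa j (rr κ • ofCb y)).1 j = κ
    have hr := rr_pos h0 h1
    rw [dg_fa, en_smul, abs_of_pos hr, en_ofCb_bd hy hb, mul_one, rr_sq h0 h1, add_sub_cancel,
      inv_inv]
  φψ y hy := by
    have hr := rr_pos h0 h1
    change toCb ((rr κ)⁻¹ • af j (fa j (rr κ • ofCb y)).1) = y
    rw [af_fa, smul_smul, inv_mul_cancel₀ hr.ne', one_smul, toCb_ofCb]
  K_cont := continuousOn_fst
  K_mem x hx s _ := hx
  K_bd x hx s _ := hx
  K_zero x _ := rfl
  K_one x hx := by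
    have hr := rr_pos h0 h1
    change x = fa j (rr κ • ofCb (toCb ((rr κ)⁻¹ • af j x.1)))
    rw [ofCb_toCb, smul_smul, mul_inv_cancel₀ hr.ne', one_smul, fa_af j (h0.trans_le hx)]

end

end Vale.Agent.P216.H456C
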