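import Vale.Agent.P216.H456C.CellSp
import Vale.Agent.P216.H550.LinSp
import Vale.Agent.P216.H901.W3

/-!
# P216-C, [C05]: the relative groups of a family over a handle decomposition

`HTriv C ev X Om c`: a compact increasing family `X` with `ev : E → M`, trivialised with shift `c`
over every handle of `C`, with fibre `Om`.

* `XL j q` = `H^q` of the part of `X` over `L j` (the union of the first `j` handles);
* `Rel j q` = `H^q` of the pair (over `L (j + 1)`, over `L j`);
* `isoE` (strong excision), `spI` (the trivialisation), `isoSus` (suspension): three pieces of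
  `relI : Intl (Rel j (q + d j)) (H^q Om) c`; `low : (Rel j q).Eph (2 c)` for `q < d j`;
* `e0`, `e`: the five term exact sequences; `isoTop`: `XL (h + 1) = X`; `XL_zero`: `XL 0 = 0`.
* `ladder`: the step property of `X` from that of `Om`, arbitrary walls with bounded steps.
* `htrivFL`, `htrivPF`, `exists_htriv`: free loops, paths with fixed end.
-/

set_option linter.all false

namespace Vale.Agent.P216.H456C

open Set Filter Topology BoundedContinuousFunction
open Vale.Agent.P216.AS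
open Vale.Agent.P216.H83
open Vale.Agent.P216.H901
open Vale.Agent.P216.H550
open Vale.Agent.P216.H133C

/-! ### Equal families -/

section Eq

variable {E : Type} [MetricSpace E] {k : Type} [Field k]

/-- equal families of pairs -/
noncomputable def isoEq {A A' B B' : ℝ → Set E} (hA : MonoP A) (hA' : MonoP A') (hB : MonoP B)
    (hB' : MonoP B') (e : A = B) (e' : A' = B') (q : ℕ) :
    PMIso (hrPM k A A' hA hA' q) (hrPM k B B' hB hB' q) := by
  subst e e'
  exact ⟨fun t ht => LinearEquiv.refl k _, fun _ _ _ _ _ _ => rfl⟩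

end Eq

/-- A family trivialised with bounded shift over every handle. -/
structure HTriv {E E' M : Type} [MetricSpace E] [MetricSpace E'] [MetricSpace M] {d h : ℕ}
    (C : CellDec M d h) (ev : E → M) (X : ℝ → Set E) (Om : ℝ → Set E') (c : ℝ) where
  c0 : 0 ≤ c
  ev_cont : Continuous ev
  X_comp : ∀ t, 0 < t → IsCompact (X t)
  X_mono : MonoP X
  Om_comp : ∀ t, 0 < t → IsCompact (Om t)
  Om_mono : MonoP Om
  tz : ∀ j, j ≤ h → SpIntl (ovr ev X (C.D j)) (ovr ev X (C.D j ∩ C.L j))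
    (fun t => cub (d * j) (Om t)) (fun t => bdc (d * j) (Om t)) c

namespace HTriv

variable {E E' M : Type} [MetricSpace E] [MetricSpace E'] [MetricSpace M] {d h : ℕ}
  {C : CellDec M d h} {ev : E → M} {X : ℝ → Set E} {Om : ℝ → Set E'} {c : ℝ}
  (T : HTriv C ev X Om c) (k : Type) [Field k]

include T in
theorem mo (D : Set M) : MonoP (ovr ev X D) := ovr_mp T.X_mono D

/-- `H^q` of the part over the first `j` handles -/
abbrev XL (j q : ℕ) : PM k := pmX k (T.mo (C.L j)) q

/-- `H^q` of the pair (over `L (j + 1)`, over `L j`) -/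
abbrev Rel (j q : ℕ) : PM k := pmP k (T.mo (C.L (j + 1))) (T.mo (C.L j)) q

theorem sub (j : ℕ) (t : ℝ) : ovr ev X (C.L j) t ⊆ ovr ev X (C.L (j + 1)) t :=
  fun _ hw => ⟨hw.1, C.L_mono (Nat.le_succ j) hw.2⟩

/-- exact sequence, degree `0` -/
def e0 (j : ℕ) : Ex5 (zeroPM k) (T.Rel k j 0) (T.XL k (j + 1) 0) (T.XL k j 0) (T.Rel k j (0 + 1)) :=
  ex5_abs0 k (T.mo _) (T.mo _) fun t _ => sub (X := X) (ev := ev) (C := C) j t

/-- exact sequence -/
def e (j q : ℕ) : Ex5 (T.XL k j q) (T.Rel k j (q + 1)) (T.XL k (j + 1) (q + 1))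
    (T.XL k j (q + 1)) (T.Rel k j (q + 1 + 1)) :=
  ex5_abs k (T.mo _) (T.mo _) (fun t _ => sub (X := X) (ev := ev) (C := C) j t) q

variable {k}

/-- strong excision -/
noncomputable def isoE (h2 : (2 : k) ≠ 0) (j q : ℕ) :
    PMIso (T.Rel k j q) (pmP k (T.mo (C.D j)) (T.mo (C.D j ∩ C.L j)) q) :=
  have e1 : ovr ev X (C.L (j + 1)) = fun t => ovr ev X (C.L j) t ∪ ovr ev X (C.D j) t := by
    funext t
    rw [C.L_succ]
    ext w
    exact ⟨fun h => h.2.elim (fun h' => Or.inl ⟨h.1, h'⟩) fun h' => Or.inr ⟨h.1, h'⟩,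
      fun h => h.elim (fun h' => ⟨h'.1, Or.inl h'.2⟩) fun h' => ⟨h'.1, Or.inr h'.2⟩⟩
  have e2 : (fun t => ovr ev X (C.L j) t ∩ ovr ev X (C.D j) t) = ovr ev X (C.D j ∩ C.L j) := by
    funext t
    ext w
    exact ⟨fun h => ⟨h.1.1, h.2.2, h.1.2⟩, fun h => ⟨⟨h.1, h.2.2⟩, h.1, h.2.1⟩⟩
  have m1 : MonoP fun t => ovr ev X (C.L j) t ∪ ovr ev X (C.D j) t := e1 ▸ T.mo (C.L (j + 1))
  have m2 : MonoP fun t => ovr ev X (C.L j) t ∩ ovr ev X (C.D j) t := e2 ▸ T.mo (C.D j ∩ C.L j)
  ((isoEq (T.mo _) (T.mo _) m1 (T.mo _) e1 rfl q).trans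
    (isoExcF h2 (fun t ht => ovr_compact T.ev_cont (C.isClosed_L j) (T.X_comp t ht))
      (fun t ht => ovr_compact T.ev_cont (C.closed j) (T.X_comp t ht)) m2 m1 q)).trans
    (isoEq (T.mo _) m2 (T.mo _) (T.mo _) rfl e2 q)

/-- the trivialisation, in cohomology -/
noncomputable def spI {j : ℕ} (hj : j ≤ h) (q : ℕ) :
    Intl (pmP k (T.mo (C.D j)) (T.mo (C.D j ∩ C.L j)) q)
      (PMr k (fun t => cub (d * j) (Om t)) (fun t => bdc (d * j) (Om t))
        (mono_cub (d * j) T.Om_mono) (mono_bdc (d * j) T.Om_mono) q) c :=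
  (T.tz j hj).intl k (T.mo _) (T.mo _) (mono_cub (d * j) T.Om_mono) (mono_bdc (d * j) T.Om_mono)
    (fun t => fun _ hw => ⟨hw.1, hw.2.1⟩) (fun t => bdc_subset _ _) T.c0 q

/-- the relative groups and `Om × (I^n, ∂I^n)` -/
noncomputable def relI0 (h2 : (2 : k) ≠ 0) {j : ℕ} (hj : j ≤ h) (q : ℕ) :
    Intl (T.Rel k j q) (PMr k (fun t => cub (d * j) (Om t)) (fun t => bdc (d * j) (Om t))
      (mono_cub (d * j) T.Om_mono) (mono_bdc (d * j) T.Om_mono) q) c :=
  PMIso.intl (T.isoE h2 j q) (isoRefl _) T.c0 (T.spI hj q)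

/-- **the relative groups** -/
noncomputable def relI (h2 : (2 : k) ≠ 0) {j : ℕ} (hj : j ≤ h) (q : ℕ) :
    Intl (T.Rel k j (q + d * j)) (pmX k T.Om_mono q) c :=
  PMIso.intl (T.isoE h2 j (q + d * j)) (isoSus h2 T.Om_mono (d * j) q).symm T.c0
    (T.spI hj (q + d * j))

/-- **low degrees** -/
theorem low (h2 : (2 : k) ≠ 0) {j : ℕ} (hj : j ≤ h) {q : ℕ} (hq : q < d * j) :
    (T.Rel k j q).Eph (2 * c) := by
  have h := (T.relI0 h2 hj q).eph T.c0 le_rfl
    (fun s t hs hst _ x => cub_low h2 (Om s) (d * j) q hq _)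
  rwa [zero_add] at h

/-- the whole family -/
noncomputable def isoTop (q : ℕ) : PMIso (pmX k T.X_mono q) (T.XL k (h + 1) q) :=
  isoEq T.X_mono monoP_empty (T.mo _) monoP_empty (by
    funext t
    rw [C.L_top]
    ext w
    exact ⟨fun h => ⟨h, mem_univ _⟩, fun h => h.1⟩) rfl q

/-- nothing over the empty set -/
theorem XL_zero (q : ℕ) : ∀ t, 0 < t → ∀ x : (T.XL k 0 q).V t, x = 0 := by
  intro t ht x
  obtain ⟨x, hx, rfl⟩ := H.exists_mk x
  refine H.mk_eq_zero.2 (T_le_Bc _ _ _ ⟨hx.1.1, 1, one_pos, fun y hy => ?_⟩)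
  have := (hy.1 0).2
  rw [C.L_zero] at this
  exact absurd this (notMem_empty _)

/-- the constants of the ladder -/
noncomputable def lc (a C c : ℝ) (d : ℕ) : ℕ → ℝ
  | 0 => C
  | j + 1 => 3 * (lc a C c d j + (C + 2 * c + a * (d * j)) + a)

theorem lc_pos {a C c : ℝ} (ha : 0 ≤ a) (hC : 0 < C) (hc : 0 ≤ c) (d j : ℕ) : 0 < lc a C c d j := by
  induction j with
  | zero => exact hC
  | succ j ih =>
    have : 0 ≤ a * (d * j) := by positivity
    rw [lc]
    linarith

/-- **The ladder**: walls `W q ≥ 0` with `|W (q + 1) - W q| ≤ a`. -/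
theorem ladder (h2 : (2 : k) ≠ 0) {W : ℕ → ℝ} {a B : ℝ} (hW0 : ∀ q, 0 ≤ W q)
    (hW : ∀ q, |W (q + 1) - W q| ≤ a) (hB : 0 < B) (hG : ∀ q, (pmX k T.Om_mono q).Step (W q) B) :
    ∀ j, j ≤ h + 1 → ∀ q, (T.XL k j q).Step (W q) (lc a B c d j) := by
  have ha : 0 ≤ a := (abs_nonneg _).trans (hW 0)
  have hWn : ∀ q n : ℕ, |W (q + n) - W q| ≤ a * n := by
    intro q n
    induction n with
    | zero => simp
    | succ n ih =>
      have h1 := hW (q + n)
      have h3 := abs_add_le (W (q + n + 1) - W (q + n)) (W (q + n) - W q)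
      have e1 : W (q + n + 1) - W (q + n) + (W (q + n) - W q) = W (q + (n + 1)) - W q := by
        rw [← add_assoc]; ring
      rw [e1] at h3
      push_cast
      linarith
  intro j
  induction j with
  | zero =>
    intro _ q
    exact (PM.step_of_zero (T.XL_zero q) _).mono' hB.le
  | succ j ih =>
    intro hj q
    have hj' : j ≤ h := by omega
    have ih := ih (by omega)
    have hc := T.c0
    have hpos := lc_pos ha hB T.c0 d j
    have hdj : 0 ≤ a * (d * j) := by positivity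
    have hR : ∀ q, (T.Rel k j q).Step (W q) (B + 2 * c + a * (d * j)) := by
      intro q
      rcases lt_or_ge q (d * j) with h1 | h1
      · exact ((T.low h2 hj' h1).step (W q)).mono' (by linarith)
      · obtain ⟨r, rfl⟩ : ∃ r, q = r + d * j := ⟨q - d * j, by omega⟩
        have h3 := (T.relI h2 hj' r).step T.c0 (hW0 r) hB (hG r)
        refine h3.mono ?_
        have h4 := hWn r (d * j)
        push_cast at h4
        linarith
    rw [lc]
    cases q with
    | zero =>
      refine (T.e0 k j).step (hW0 0) (by linarith) (PM.step_of_zero (fun _ _ _ => rfl) _)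
        ((hR 0).mono' (by linarith)) ((ih 0).mono' (by linarith)) ((hR (0 + 1)).mono ?_)
      have := hW 0
      rw [abs_sub_comm] at this
      linarith
    | succ q =>
      refine (T.e k j q).step (hW0 (q + 1)) (by linarith) ((ih q).mono ?_)
        ((hR (q + 1)).mono' (by linarith)) ((ih (q + 1)).mono' (by linarith))
        ((hR (q + 1 + 1)).mono ?_)
      · have := hW q
        linarith
      · have := hW (q + 1)
        rw [abs_sub_comm] at this
        linarith

/-- **The step property of the whole family.** -/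
theorem step (h2 : (2 : k) ≠ 0) {W : ℕ → ℝ} {a B : ℝ} (hW0 : ∀ q, 0 ≤ W q)
    (hW : ∀ q, |W (q + 1) - W q| ≤ a) (hB : 0 < B) (hG : ∀ q, (pmX k T.Om_mono q).Step (W q) B)
    (q : ℕ) : (pmX k T.X_mono q).Step (W q) (lc a B c d (h + 1)) :=
  pmIso_step (T.isoTop q) (T.ladder h2 hW0 hW hB hG (h + 1) le_rfl q)

end HTriv

/-! ### Free loops and paths -/

section inst

open Vale.Agent.P216.PS
open Vale.Agent.P216.MV337
open Vale.Agent.P216.H456

variable {M : Type} [MetricSpace M] [CompactSpace M] {d h : ℕ} {ℓ : ℝ}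

/-- free loops -/
noncomputable def htrivFL (C : CellDec M d h) (x₀ : M) (h0 : 0 ≤ ℓ) (T : ℕ → M → ℝ → M)
    (hT : ∀ j, j ≤ h → Tr (C.D j) x₀ ℓ (T j)) :
    HTriv C (evz (M := M)) (fun t => FL M t) (fun t => P x₀ x₀ t) (2 * ℓ) where
  c0 := by linarith
  ev_cont := by unfold evz; fun_prop
  X_comp t ht := isCompact_FL ht.le
  X_mono s t _ h := FL_mono h
  Om_comp t _ := isCompact_P _ _ _
  Om_mono s t _ h := P_mono h
  tz j hj := cellFL (C.cellL hj) (C.closed j) inter_subset_left (hT j hj)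

/-- paths with end `b` -/
noncomputable def htrivPF (C : CellDec M d h) (x₀ b : M) (h0 : 0 ≤ ℓ) (T : ℕ → M → ℝ → M)
    (hT : ∀ j, j ≤ h → Tr (C.D j) x₀ ℓ (T j)) :
    HTriv C (evz (M := M)) (fun t => PF b t) (fun t => P x₀ b t) ℓ where
  c0 := h0
  ev_cont := by unfold evz; fun_prop
  X_comp t ht := isCompact_PF b ht.le
  X_mono s t _ h := PF_mono h
  Om_comp t _ := isCompact_P _ _ _
  Om_mono s t _ h := P_mono h
  tz j hj := cellPF b (C.cellL hj) (C.closed j) inter_subset_left (hT j hj)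

/-- **Trivialisations exist**, with one constant for all end points `b`. -/
theorem exists_htriv [PathConnectedSpace M] (C : CellDec M d h) (x₀ : M) {ρ : ℝ} (hρ : 0 < ρ)
    (hU : LS.UniqSeg M ρ) : ∃ c, 0 ≤ c ∧
      Nonempty (HTriv C (evz (M := M)) (fun t => FL M t) (fun t => P x₀ x₀ t) (2 * c)) ∧
      ∀ b, Nonempty (HTriv C (evz (M := M)) (fun t => PF b t) (fun t => P x₀ b t) c) := by
  classical
  obtain ⟨ℓ, h0, hT⟩ := exists_trD C x₀ hρ hU
  let T : ℕ → M → ℝ → M := fun j => if hj : j ≤ h then (hT j hj).choose else fun x _ => x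
  have hT' : ∀ j, j ≤ h → Tr (C.D j) x₀ ℓ (T j) := fun j hj => by
    have e : T j = (hT j hj).choose := dif_pos hj
    rw [e]
    exact (hT j hj).choose_spec
  exact ⟨ℓ, h0, ⟨htrivFL C x₀ h0 T hT'⟩, fun b => ⟨htrivPF C x₀ b h0 T hT'⟩⟩

end inst

end Vale.Agent.P216.H456C
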