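import Vale.Agent.P216.H133C.Shear
import Vale.Agent.P216.H133C.HPCell

/-!
# P216-C, block [THOM]: quaternionic reflections

`rf w` is the matrix of `x ↦ 2 w ⟨w, x⟩ / |w|² - x`, a self-adjoint unitary involution; with
`w = β + e_j`, `β` the unit representative of `b` with `β j > 0`, it maps `b` to the `j`-th
coordinate line.
-/

open Set Quaternion

namespace Vale.Agent.P216.H456C

open Vale.Agent.P216.H133C

variable {N : ℕ}

/-! ### The hermitian product -/

theorem hp_add_left (a b x : Fin N → Quaternion ℝ) : hp (a + b) x = hp a x + hp b x := by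
  simp only [hp, Pi.add_apply, star_add, add_mul, Finset.sum_add_distrib]

theorem hp_add_right (x a b : Fin N → Quaternion ℝ) : hp x (a + b) = hp x a + hp x b := by
  simp only [hp, Pi.add_apply, mul_add, Finset.sum_add_distrib]

theorem hp_sub_right (x a b : Fin N → Quaternion ℝ) :
    hp x (fun i => a i - b i) = hp x a - hp x b := by
  simp only [hp, mul_sub, Finset.sum_sub_distrib]

theorem hp_mul_right (x w : Fin N → Quaternion ℝ) (t : ℝ) (q : Quaternion ℝ) :
    hp x (fun i => t • (w i * q)) = t • (hp x w * q) := by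
  simp only [hp, Finset.sum_mul, Finset.smul_sum]
  exact Finset.sum_congr rfl fun i _ => by rw [mul_smul_comm, mul_assoc]

theorem hp_self (x : Fin N → Quaternion ℝ) : hp x x = ((ns x : ℝ) : Quaternion ℝ) := by
  have h : ∀ i, star (x i) * x i = ((‖x i‖ ^ 2 : ℝ) : Quaternion ℝ) := fun i => star_mul_self' _
  simp only [hp, h, ns]
  exact (map_sum (algebraMap ℝ (Quaternion ℝ)) _ _).symm

theorem hp_zero_left (x : Fin N → Quaternion ℝ) : hp 0 x = 0 := by
  simp [hp]

theorem hp_single_left (j : Fin N) (x : Fin N → Quaternion ℝ) : hp (Pi.single j 1) x = x j := by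
  rw [hp, Finset.sum_eq_single j]
  · rw [Pi.single_eq_same, star_one, one_mul]
  · intro i _ hi
    rw [Pi.single_eq_of_ne hi, star_zero, zero_mul]
  · simp

theorem hp_single_right (j : Fin N) (x : Fin N → Quaternion ℝ) :
    hp x (Pi.single j 1) = star (x j) := by
  rw [← star_hp, hp_single_left]

theorem ns_single (j : Fin N) : ns (Pi.single j 1 : Fin N → Quaternion ℝ) = 1 := by
  have h := hp_self (Pi.single j 1 : Fin N → Quaternion ℝ)
  rw [hp_single_left, Pi.single_eq_same] at h
  exact (Quaternion.coe_injective (by rw [← h, Quaternion.coe_one])).symm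

/-! ### Reflections -/

/-- the matrix of the reflection `x ↦ 2 w ⟨w, x⟩ / |w|² - x` -/
noncomputable def rf (w : Fin N → Quaternion ℝ) : Mt N :=
  fun i j => (2 / ns w) • prj w i j - if i = j then 1 else 0

theorem mv_rf (w x : Fin N → Quaternion ℝ) :
    mv (rf w) x = fun i => (2 / ns w) • (w i * hp w x) - x i := by
  funext i
  simp only [mv, rf, sub_mul, Finset.sum_sub_distrib, ite_mul, one_mul, zero_mul,
    Finset.sum_ite_eq, Finset.mem_univ, if_true]
  congr 1
  rw [hp, Finset.mul_sum, Finset.smul_sum]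
  exact Finset.sum_congr rfl fun p _ => by rw [prj, smul_mul_assoc, mul_assoc]

theorem hp_mv_rf_same (w x : Fin N → Quaternion ℝ) : hp w (mv (rf w) x) = hp w x := by
  rw [mv_rf, hp_sub_right w (fun i => (2 / ns w) • (w i * hp w x)) x, hp_mul_right, hp_self]
  rcases eq_or_ne (ns w) 0 with h | h
  · have h0 := ns_eq_zero h
    subst h0
    rw [hp_zero_left]
    simp
  · rw [Quaternion.coe_mul_eq_smul, smul_smul, div_mul_cancel₀ _ h, two_smul]
    abel

theorem mv_rf_rf (w x : Fin N → Quaternion ℝ) : mv (rf w) (mv (rf w) x) = x := by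
  rw [mv_rf w (mv (rf w) x), hp_mv_rf_same]
  funext i
  rw [mv_rf]
  exact sub_sub_cancel _ _

theorem hp_rf_adj (w x y : Fin N → Quaternion ℝ) :
    hp (mv (rf w) x) y = hp x (mv (rf w) y) := by
  rw [← star_hp y, mv_rf, hp_sub_right y (fun i => (2 / ns w) • (w i * hp w x)) x, hp_mul_right,
    mv_rf, hp_sub_right x (fun i => (2 / ns w) • (w i * hp w y)) y, hp_mul_right, star_sub,
    Quaternion.star_smul, star_mul, star_hp, star_hp, star_hp]

theorem hp_rf (w x y : Fin N → Quaternion ℝ) : hp (mv (rf w) x) (mv (rf w) y) = hp x y := by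
  rw [hp_rf_adj, mv_rf_rf]

theorem ns_rf (w x : Fin N → Quaternion ℝ) : ns (mv (rf w) x) = ns x := by
  have h := hp_rf w x x
  rw [hp_self, hp_self] at h
  exact Quaternion.coe_injective h

theorem cj_rf_mem (w : Fin N → Quaternion ℝ) {a : Mt N} (ha : a ∈ HP N) : cj (rf w) a ∈ HP N := by
  obtain ⟨u, hu, rfl⟩ := ha
  exact ⟨mv (rf w) u, by rw [ns_rf, hu], cj_prj _ _⟩

theorem cj_rf_rf (w : Fin N → Quaternion ℝ) {a : Mt N} (ha : a ∈ HP N) :
    cj (rf w) (cj (rf w) a) = a := by
  obtain ⟨u, hu, rfl⟩ := ha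
  rw [cj_prj, cj_prj, mv_rf_rf]

theorem tp_rf (w : Fin N → Quaternion ℝ) {a b : Mt N} (ha : a ∈ HP N) (hb : b ∈ HP N) :
    tp (cj (rf w) a) (cj (rf w) b) = tp a b := by
  obtain ⟨u, hu, rfl⟩ := ha
  obtain ⟨v, hv, rfl⟩ := hb
  rw [cj_prj, cj_prj, tp_prj, tp_prj, hp_rf]

theorem continuousOn_rf : ContinuousOn (rf : (Fin N → Quaternion ℝ) → Mt N) {w | 0 < ns w} := by
  refine continuousOn_pi.2 fun i => continuousOn_pi.2 fun j => ?_
  unfold rf
  refine ContinuousOn.sub (ContinuousOn.fun_smul ?_ ?_) continuousOn_const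
  · exact continuousOn_const.div continuous_ns.continuousOn fun w hw => ne_of_gt hw
  · exact ((continuous_apply j).comp ((continuous_apply i).comp continuous_prj)).continuousOn

/-! ### The unit representative -/

/-- the unit representative of `b` with `β j > 0` -/
noncomputable def ur (j : Fin N) (b : Mt N) : Fin N → Quaternion ℝ := √(dg b j) • ch j b

theorem ns_ch {j : Fin N} {b : Mt N} (hb : b ∈ HP N) (h : 0 < dg b j) :
    (ns (ch j b))⁻¹ = dg b j := by
  have h1 := dg_npr (ch j b) j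
  rw [npr_ch hb h, ch_self hb h, norm_one, one_pow, one_div] at h1
  exact h1.symm

theorem prj_ur {j : Fin N} {b : Mt N} (hb : b ∈ HP N) (h : 0 < dg b j) : prj (ur j b) = b := by
  rw [ur, prj_smul, Real.sq_sqrt h.le]
  conv_rhs => rw [← npr_ch hb h, npr, ns_ch hb h]

theorem ns_ur {j : Fin N} {b : Mt N} (hb : b ∈ HP N) (h : 0 < dg b j) : ns (ur j b) = 1 := by
  rw [ur, ns_smul, Real.sq_sqrt h.le]
  have h1 := ns_ch hb h
  have h2 : ns (ch j b) ≠ 0 := fun h0 => by
    rw [h0, inv_zero] at h1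
    exact h.ne h1
  rw [← h1, inv_mul_cancel₀ h2]

theorem ur_self {j : Fin N} {b : Mt N} (hb : b ∈ HP N) (h : 0 < dg b j) :
    ur j b j = ((√(dg b j) : ℝ) : Quaternion ℝ) := by
  rw [ur, Pi.smul_apply, ch_self hb h, ← Quaternion.coe_one, Quaternion.smul_coe, mul_one]

/-- the axis of the reflection -/
noncomputable def ax (j : Fin N) (b : Mt N) : Fin N → Quaternion ℝ := ur j b + Pi.single j 1

theorem hp_ax {j : Fin N} {b : Mt N} (hb : b ∈ HP N) (h : 0 < dg b j) :
    hp (ax j b) (ur j b) = ((1 + √(dg b j) : ℝ) : Quaternion ℝ) := by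
  rw [ax, hp_add_left, hp_self, ns_ur hb h, hp_single_left, ur_self hb h, ← Quaternion.coe_add]

theorem ns_ax {j : Fin N} {b : Mt N} (hb : b ∈ HP N) (h : 0 < dg b j) :
    ns (ax j b) = 2 * (1 + √(dg b j)) := by
  have h1 : hp (ax j b) (ax j b) = ((2 * (1 + √(dg b j)) : ℝ) : Quaternion ℝ) := by
    conv_lhs => rw [show ax j b = ur j b + Pi.single j 1 from rfl]
    rw [hp_add_right]
    have e1 : hp (ur j b + Pi.single j 1) (ur j b) = ((1 + √(dg b j) : ℝ) : Quaternion ℝ) :=
      hp_ax hb h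
    rw [e1, hp_single_right, Pi.add_apply, Pi.single_eq_same, ur_self hb h, star_add, star_one,
      Quaternion.star_coe, ← Quaternion.coe_one, ← Quaternion.coe_add, ← Quaternion.coe_add]
    congr 1
    ring
  rw [hp_self] at h1
  exact Quaternion.coe_injective h1

theorem rf_ur {j : Fin N} {b : Mt N} (hb : b ∈ HP N) (h : 0 < dg b j) :
    mv (rf (ax j b)) (ur j b) = Pi.single j 1 := by
  have h0 : (1 : ℝ) + √(dg b j) ≠ 0 := by positivity
  rw [mv_rf, hp_ax hb h, ns_ax hb h]
  funext i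
  rw [← Quaternion.coe_commutes, Quaternion.coe_mul_eq_smul, smul_smul]
  have : 2 / (2 * (1 + √(dg b j))) * (1 + √(dg b j)) = 1 := by field_simp
  rw [this, one_smul, ax, Pi.add_apply]
  abel

theorem cj_rf_ax {j : Fin N} {b : Mt N} (hb : b ∈ HP N) (h : 0 < dg b j) :
    cj (rf (ax j b)) b = prj (Pi.single j 1) := by
  have h1 : cj (rf (ax j b)) (prj (ur j b)) = prj (Pi.single j 1) := by
    rw [cj_prj, rf_ur hb h]
  rwa [prj_ur hb h] at h1

theorem ns_ax_pos {j : Fin N} {b : Mt N} (hb : b ∈ HP N) (h : 0 < dg b j) : 0 < ns (ax j b) := by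
  rw [ns_ax hb h]
  positivity

theorem continuousOn_ax (j : Fin N) : ContinuousOn (ax j : Mt N → _) {b | 0 < dg b j} := by
  unfold ax ur
  refine ContinuousOn.add (ContinuousOn.fun_smul ?_ (continuousOn_ch j)) continuousOn_const
  exact (Real.continuous_sqrt.comp (continuous_dg j)).continuousOn

/-- `tp a e_j` -/
theorem tp_single {a : Mt N} (ha : a ∈ HP N) (j : Fin N) :
    tp a (prj (Pi.single j 1)) = dg a j := by
  obtain ⟨u, hu, rfl⟩ := ha
  rw [tp_prj, hp_single_left, dg_prj]

end Vale.Agent.P216.H456C
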