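import Vale.Agent.P216.H133C.ThomOut

/-!
# P216-C, block [T5]: from the Thom class to the Thom cochain

`t5 : T5` : the class of `T3`, made relative to `Ac c` by `T4`, represented by a normalised cochain,
transported to `M × M` by `e × e` and cut off where `ρ₁ ≤ dist`.
-/

open Set Quaternion

set_option linter.unusedSectionVars false

namespace Vale.Agent.P216.H456C

open Vale.Agent.P216.AS Vale.Agent.P216.H901 Vale.Agent.P216.H83 Vale.Agent.P216.Sl
  Vale.Agent.P216.PS Vale.Agent.P216.H133C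

/-! ### The trace pairing -/

section Tp

variable {N : ℕ}

theorem sum_norm_prj {v : Fin N → Quaternion ℝ} (hv : ns v = 1) :
    ∑ i, ∑ j, ‖prj v i j‖ ^ 2 = 1 := by
  have h : ∀ i, ∑ j, ‖prj v i j‖ ^ 2 = ‖v i‖ ^ 2 * ns v := fun i => by
    rw [ns, Finset.mul_sum]
    exact Finset.sum_congr rfl fun j _ => by rw [norm_prj, mul_pow]
  simp only [h, hv, mul_one]
  exact hv

theorem sum_norm_sub {a b : Mt N} (ha : a ∈ HP N) (hb : b ∈ HP N) :
    ∑ i, ∑ j, ‖a i j - b i j‖ ^ 2 = 2 - 2 * tp a b := by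
  obtain ⟨u, hu, rfl⟩ := ha
  obtain ⟨v, hv, rfl⟩ := hb
  have h : ∀ i j, ‖prj u i j - prj v i j‖ ^ 2 =
      ‖prj u i j‖ ^ 2 + ‖prj v i j‖ ^ 2 - 2 * (prj u i j * prj v j i).re := fun i j => by
    rw [norm_sub_sq_real, Quaternion.inner_def]
    have : star (prj v i j) = prj v j i := by
      rw [prj, prj, star_mul, star_star]
    rw [this]
    ring
  simp only [h, Finset.sum_sub_distrib, Finset.sum_add_distrib, sum_norm_prj hu, sum_norm_prj hv,
    tp, Finset.mul_sum]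
  norm_num

theorem tp_lt_one {a b : Mt N} (ha : a ∈ HP N) (hb : b ∈ HP N) (hne : a ≠ b) : tp a b < 1 := by
  have h := sum_norm_sub ha hb
  have h1 : ∃ i j, a i j ≠ b i j := by
    by_contra hcon
    push Not at hcon
    exact hne (funext fun i => funext fun j => hcon i j)
  obtain ⟨i, j, hij⟩ := h1
  have h2 : 0 < ∑ i, ∑ j, ‖a i j - b i j‖ ^ 2 := by
    refine Finset.sum_pos' (fun i _ => Finset.sum_nonneg fun j _ => by positivity)
      ⟨i, Finset.mem_univ _, ?_⟩
    refine Finset.sum_pos' (fun j _ => by positivity) ⟨j, Finset.mem_univ _, ?_⟩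
    have := norm_pos_iff.2 (sub_ne_zero.2 hij)
    positivity
  linarith

theorem continuous_tp : Continuous fun p : Mt N × Mt N => tp p.1 p.2 := by
  unfold tp
  refine continuous_finset_sum _ fun i _ => continuous_finset_sum _ fun j _ => ?_
  refine Quaternion.continuous_re.comp (Continuous.mul ?_ ?_)
  · exact (continuous_apply j).comp ((continuous_apply i).comp continuous_fst)
  · exact (continuous_apply i).comp ((continuous_apply j).comp continuous_snd)

end Tp

/-! ### Classes and lists -/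

section Cls

variable {E E' : Type} [PseudoMetricSpace E] [PseudoMetricSpace E'] {k : Type} [Field k]

theorem ExL.map' {I : Type} {a : I → E → E} {a' : I → E' → E'} {X : Set E} {X' : Set E'} {n : ℕ}
    {F : E → E'} (hF : IsMap a a' X X' F) {f : List E' → k} (hf : ExL X' n f) :
    ExL X n fun l => f (l.map F) := by
  obtain ⟨g, hg, ε, hε, h⟩ := hf
  obtain ⟨δ, hδ, h'⟩ := hF.uc ε hε
  refine ⟨fun l => g (l.map F), fun h0 l => hg h0 _, δ, hδ, fun l hl hs => ?_⟩
  rw [dl_map]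
  refine h _ (by rw [List.length_map, hl]) ⟨fun y hy => ?_, fun y hy y' hy' => ?_⟩
  · obtain ⟨x, hx, rfl⟩ := List.mem_map.1 hy
    exact hF.mapsX (hs.1 x hx)
  · obtain ⟨x, hx, rfl⟩ := List.mem_map.1 hy
    obtain ⟨x', hx', rfl⟩ := List.mem_map.1 hy'
    exact h' x (hs.1 x hx) x' (hs.1 x' hx') (hs.2 x hx x' hx')

theorem mk_zero_of_ExL {X : Set E} {n : ℕ} {c : (Fin (n + 1) → E) → k}
    (hc : c ∈ Zc (Zr (tr E) (on k) X ∅) (Zr (tr E) (on k) X X) n) (h : ExL X n (toL c)) :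
    (H.mk c hc : Hr (tr E) (on k) X ∅ n) = 0 := by
  have hc' : c ∈ Zc (Cc (tr E) (on k) X) (Zr (tr E) (on k) X X) n := by
    rw [Zr_empty] at hc
    exact hc
  have hcoc : CocL X n (toL c) := by
    obtain ⟨-, ε, hε, h1⟩ := mem_Zc_abs.1 hc'
    refine ⟨ε, hε, fun l hl hs => ?_⟩
    obtain ⟨y, rfl⟩ := exists_ofFn hl
    rw [← toL_d, toL_ofFn]
    exact h1 y (smL_ofFn.1 hs)
  have h1 : (H.mk c hc' : Ha (tr E) (on k) X n) = cls (tr E) (on k) (toL c) hcoc :=
    mk_congr (ofL_toL c).symm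
  have h2 : (H.mk c hc : Hr (tr E) (on k) X ∅ n) = absE k X n (H.mk c hc') := rfl
  rw [h2, h1, cls_eq_zero.2 h, map_zero]

end Cls

/-! ### The cochain -/

section Main

variable {k : Type} [Field k] {N n : ℕ} {M : Type} [MetricSpace M] [CompactSpace M]

/-- `(x, y) ↦ (e x, e y)` -/
noncomputable def ee (e : M ≃ₜ HP N) (p : M × M) : Mt N × Mt N := ((e p.1).1, (e p.2).1)

theorem continuous_ee (e : M ≃ₜ HP N) : Continuous (ee e) :=
  (continuous_subtype_val.comp (e.continuous.comp continuous_fst)).prodMk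
    (continuous_subtype_val.comp (e.continuous.comp continuous_snd))

theorem isMap_ee (e : M ≃ₜ HP N) :
    IsMap (tr (M × M)) (tr (Mt N × Mt N)) univ (HP N ×ˢ HP N) (ee e) :=
  C313.isMap_of isCompact_univ (continuous_ee e).continuousOn fun p _ => ⟨(e p.1).2, (e p.2).2⟩

/-- Distant pairs are mapped into `Ac c`, `c < 1`. -/
theorem exists_c (e : M ≃ₜ HP N) {ρ : ℝ} (hρ : 0 < ρ) : ∃ c : ℝ, 0 ≤ c ∧ c < 1 ∧
    ∀ p : M × M, ρ ≤ dist p.1 p.2 → ee e p ∈ Ac N c := by
  have hK : IsCompact {p : M × M | ρ ≤ dist p.1 p.2} :=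
    (isClosed_le continuous_const (continuous_fst.dist continuous_snd)).isCompact
  rcases Set.eq_empty_or_nonempty {p : M × M | ρ ≤ dist p.1 p.2} with he | hne
  · refine ⟨0, le_rfl, one_pos, fun p hp => ?_⟩
    have : p ∈ {p : M × M | ρ ≤ dist p.1 p.2} := hp
    rw [he] at this
    exact absurd this (notMem_empty _)
  · have hc : Continuous fun p : M × M => tp (ee e p).1 (ee e p).2 :=
      continuous_tp.comp (continuous_ee e)
    obtain ⟨p₀, hp₀, hmax⟩ := hK.exists_isMaxOn hne hc.continuousOn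
    refine ⟨max 0 (tp (ee e p₀).1 (ee e p₀).2), le_max_left _ _, max_lt one_pos ?_, fun p hp =>
      ⟨(e p.1).2, (e p.2).2, (hmax hp).trans (le_max_right _ _)⟩⟩
    refine tp_lt_one (e p₀.1).2 (e p₀.2).2 fun h => ?_
    have h1 : p₀.1 = p₀.2 := e.injective (Subtype.ext h)
    have h2 : ρ ≤ dist p₀.1 p₀.2 := hp₀
    rw [h1, dist_self] at h2
    linarith

open Classical in
/-- The cochain of `M × M` with the cut-off. -/
noncomputable def tcf (e : M ≃ₜ HP N) (ρ : ℝ) (f : (Fin (n + 1) → Mt N × Mt N) → k)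
    (l : List (M × M)) : k :=
  if ∃ p ∈ l, ρ ≤ dist p.1 p.2 then 0 else toL f (l.map (ee e))

theorem tcf_eq (e : M ≃ₜ HP N) {ρ ε δ : ℝ} {f : (Fin (n + 1) → Mt N × Mt N) → k} {c : ℝ}
    (hc : ∀ p : M × M, ρ / 2 ≤ dist p.1 p.2 → ee e p ∈ Ac N c)
    (hf : ∀ x, Sm (Ac N c) ε x → f x = 0)
    (hδ : ∀ x y : M × M, dist x y < δ → dist (ee e x) (ee e y) < ε) {l : List (M × M)}
    (hl : N929.Fine univ (min δ (ρ / 4)) l) : tcf e ρ f l = toL f (l.map (ee e)) := by
  rw [tcf]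
  split_ifs with h1
  · obtain ⟨p, hp, hp1⟩ := h1
    by_cases hlen : (l.map (ee e)).length = n + 1
    · obtain ⟨x, hx⟩ := exists_ofFn hlen
      rw [← hx, toL_ofFn]
      refine (hf x (smL_ofFn.1 ?_)).symm
      rw [hx]
      constructor
      · intro z hz
        obtain ⟨q, hq, rfl⟩ := List.mem_map.1 hz
        refine hc q ?_
        have h2 : dist p q < ρ / 4 := (hl.2 p hp q hq).trans_le (min_le_right _ _)
        have h3 : dist p.1 q.1 < ρ / 4 := (le_max_left _ _).trans_lt h2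
        have h4 : dist p.2 q.2 < ρ / 4 := (le_max_right _ _).trans_lt h2
        have h5 := dist_triangle4 p.1 q.1 q.2 p.2
        rw [dist_comm q.2 p.2] at h5
        linarith
      · intro z hz z' hz'
        obtain ⟨q, hq, rfl⟩ := List.mem_map.1 hz
        obtain ⟨q', hq', rfl⟩ := List.mem_map.1 hz'
        exact hδ q q' ((hl.2 q hq q' hq').trans_le (min_le_left _ _))
    · rw [toL_of_ne _ hlen]
  · rfl

end Main

theorem t5 : T5 := by
  intro h3 h4 m M _ _ e k _ h2 ρ₁ hρ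
  obtain ⟨x, hx⟩ := h3 m k h2
  obtain ⟨c, h0, h1, hc⟩ := exists_c e (half_pos hρ)
  obtain ⟨y, hy⟩ := h4 (m + 1) k c h0 h1 (4 * m) x
  obtain ⟨f, hf, hN, rfl⟩ := exists_mk_Nrm Stb_Zr Stb_Zr y
  obtain ⟨-, ⟨ε₁, hε₁, hv1⟩, ε₂, hε₂, hv2⟩ := mem_Zc_rel.1 hf
  obtain ⟨δ, hδ, huc⟩ := (isMap_ee e).uc (min ε₁ ε₂) (lt_min hε₁ hε₂)
  have huc' : ∀ x y : M × M, dist x y < δ → dist (ee e x) (ee e y) < min ε₁ ε₂ :=
    fun x y => huc x (mem_univ _) y (mem_univ _)
  have key : ∀ {l : List (M × M)}, N929.Fine univ (min δ (ρ₁ / 4)) l →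
      tcf e ρ₁ f l = toL f (l.map (ee e)) := fun hl =>
    tcf_eq e hc (fun x hx => hv1 x (hx.mono subset_rfl (min_le_left _ _))) huc' hl
  have hcoc : N929.Coc univ (min δ (ρ₁ / 4)) (4 * m) (tcf e ρ₁ f) := by
    intro l hl hs
    have e1 : dl (tcf e ρ₁ f) l = dl (fun l => toL f (l.map (ee e))) l :=
      N929.dl_congr fun l' _ hl' => key (hs.sub hl')
    rw [e1, dl_map, ← toL_d]
    obtain ⟨z, hz⟩ := exists_ofFn (l := l.map (ee e)) (n := 4 * m + 2)
      (by rw [List.length_map, hl])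
    rw [← hz, toL_ofFn]
    refine hv2 z (smL_ofFn.1 ?_)
    rw [hz]
    constructor
    · intro w hw
      obtain ⟨q, hq, rfl⟩ := List.mem_map.1 hw
      exact ⟨(e q.1).2, (e q.2).2⟩
    · intro w hw w' hw'
      obtain ⟨q, hq, rfl⟩ := List.mem_map.1 hw
      obtain ⟨q', hq', rfl⟩ := List.mem_map.1 hw'
      exact (huc' q q' ((hs.2 q hq q' hq').trans_le (min_le_left _ _))).trans_le (min_le_right _ _)
  refine ⟨⟨tcf e ρ₁ f, fun l hl => ?_, min δ (ρ₁ / 4), lt_min hδ (by linarith), hcoc,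
    fun l hl => if_pos hl⟩, fun y hex => ?_⟩
  · have h6 : toL f (l.map (ee e)) = 0 := hN.map (ee e) l hl
    rw [tcf, h6, ite_self]
  · refine hx (e y).1 (e y).2 ?_
    rw [← hy]
    refine mk_zero_of_ExL (c := pbK k (sl (e y).1) (4 * m) f) _ ?_
    classical
    let E' : Mt (m + 1) → M := fun a => if h : a ∈ HP (m + 1) then e.symm ⟨a, h⟩ else y
    have hE' : ∀ a (h : a ∈ HP (m + 1)), E' a = e.symm ⟨a, h⟩ := fun a h => dif_pos h
    have hmap : IsMap (tr (Mt (m + 1))) (tr M) (HP (m + 1)) (univ : Set M) E' := by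
      refine C313.isMap_of (isCompact_HP _) ?_ fun _ _ => mem_univ _
      rw [continuousOn_iff_continuous_restrict]
      refine e.symm.continuous.congr fun a => ?_
      exact (hE' a.1 a.2).symm
    obtain ⟨g, hg, ε, hε, hgx⟩ := ExL.map' hmap hex
    obtain ⟨η, hη, hη'⟩ := hmap.uc (min δ (ρ₁ / 4)) (lt_min hδ (by linarith))
    refine ⟨g, hg, min ε η, lt_min hε hη, fun l hl hs => ?_⟩
    rw [← hgx l hl (hs.mono subset_rfl (min_le_left _ _))]
    have hfine : N929.Fine univ (min δ (ρ₁ / 4)) ((l.map E').map fun x => (x, y)) := by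
      refine ⟨fun _ _ => mem_univ _, fun p hp q hq => ?_⟩
      rw [List.map_map] at hp hq
      obtain ⟨a, ha, rfl⟩ := List.mem_map.1 hp
      obtain ⟨b, hb, rfl⟩ := List.mem_map.1 hq
      change dist (E' a, y) (E' b, y) < _
      rw [Prod.dist_eq, dist_self, max_eq_left dist_nonneg]
      exact hη' a (hs.1 a ha) b (hs.1 b hb) ((hs.2 a ha b hb).trans_le (min_le_right _ _))
    change toL (P265.AS.pb (sl (e y).1) f) l = tcf e ρ₁ f ((l.map E').map fun x => (x, y))
    rw [key hfine, toL_pb, List.map_map, List.map_map]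
    congr 1
    refine List.map_congr_left fun a ha => ?_
    change (a, (e y).1) = ((e (E' a)).1, (e y).1)
    rw [hE' a (hs.1 a ha), e.apply_symm_apply]

end Vale.Agent.P216.H456C
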